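import Mathlib.Dynamics.Ergodic.Ergodic
import Mathlib.MeasureTheory.Function.LpSeminorm.Basic
import Mathlib.MeasureTheory.Integral.Bochner.Basic
import Mathlib.MeasureTheory.Measure.Prod
import Mathlib.Algebra.BigOperators.Expect
import Mathlib.Analysis.SpecialFunctions.Trigonometric.Basic

/-! Mixing of all orders and multiple ergodic averages along integer sequences. -/

open MeasureTheory Filter Topology
open scoped BigOperators ENNReal

namespace Vale.Agent.N102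

variable {Ω : Type*} [MeasurableSpace Ω] {I : Type*}

/-- the iterate `T ^ n`, `n ∈ ℤ`, of an invertible bimeasurable map -/
def iter (T : Ω ≃ᵐ Ω) (n : ℤ) : Ω → Ω := (T.toEquiv ^ n : Equiv.Perm Ω)

/-- mixing: `μ (A ∩ T⁻ⁿ B) → μ A μ B` as `|n| → ∞` -/
def Mixing (μ : Measure Ω) (T : Ω ≃ᵐ Ω) : Prop :=
  ∀ A B : Set Ω, MeasurableSet A → MeasurableSet B →
    Tendsto (fun n : ℤ => μ.real (A ∩ iter T n ⁻¹' B)) (comap (fun n : ℤ => |n|) atTop)
      (𝓝 (μ.real A * μ.real B))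

/-- mixing of order `k`: `μ (⋂ T^{-t_i} A_i) → ∏ μ A_i` as all gaps `t_{i+1} - t_i` tend to `+∞` -/
def MixingOfOrder (μ : Measure Ω) (T : Ω ≃ᵐ Ω) (k : ℕ) : Prop :=
  ∀ A : Fin k → Set Ω, (∀ i, MeasurableSet (A i)) →
    Tendsto (fun t : Fin k → ℤ => μ.real (⋂ i, iter T (t i) ⁻¹' A i))
      (⨅ (i : Fin k) (j : Fin k) (_ : (j : ℕ) = i + 1), comap (fun t => t j - t i) atTop)
      (𝓝 (∏ i, μ.real (A i)))

/-- the sequences `a_1, …, a_k` are jointly ergodic for `T` along the finite sets `Φ_N`: for all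
`f_i ∈ L^∞(μ)` the averages over `n ∈ Φ_N` of `∏ f_i ∘ T^{a_i(n)}` tend to `∏ ∫ f_i` in `L²(μ)` -/
def JointlyErgodic (μ : Measure Ω) (T : Ω ≃ᵐ Ω) (Φ : ℕ → Finset I) {k : ℕ} (a : Fin k → I → ℤ) :
    Prop :=
  ∀ f : Fin k → Ω → ℂ, (∀ i, MemLp (f i) ∞ μ) →
    Tendsto (fun N => eLpNorm (fun x => (𝔼 n ∈ Φ N, ∏ i, f i (iter T (a i n) x)) -
      ∏ i, ∫ y, f i y ∂μ) 2 μ) atTop (𝓝 0)

/-- the averages over `n ∈ Φ_N` of `μ (A ∩ T^{-b(n)} B)` tend to `μ A μ B` -/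
def WeaklyErgodic (μ : Measure Ω) (T : Ω ≃ᵐ Ω) (Φ : ℕ → Finset I) (b : I → ℤ) : Prop :=
  ∀ A B : Set Ω, MeasurableSet A → MeasurableSet B →
    Tendsto (fun N => 𝔼 n ∈ Φ N, μ.real (A ∩ iter T (b n) ⁻¹' B)) atTop
      (𝓝 (μ.real A * μ.real B))

/-- the Weyl averages over `n ∈ Φ_N` of `exp (2 π i θ b(n))` tend to `0` for all but countably many
real `θ` (for example for all irrational `θ`) -/
def WeylNull (Φ : ℕ → Finset I) (b : I → ℤ) : Prop :=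
  {θ : ℝ | ¬ Tendsto (fun N => 𝔼 n ∈ Φ N, Complex.exp (2 * Real.pi * Complex.I * θ * b n)) atTop
    (𝓝 0)}.Countable

end Vale.Agent.N102
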