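import Mathlib.Algebra.Order.BigOperators.Expect
import Mathlib.Analysis.RCLike.Basic
import Mathlib.Analysis.Complex.Basic
import Mathlib.Tactic

/-! The filter of sets of density one along a sequence of finite sets. -/

open Filter Topology Finset
open scoped BigOperators

namespace Vale.Agent.N102

variable {J : Type*}

/-- the indicator function of the complement -/
noncomputable def off (S : Set J) (n : J) : ℝ := Sᶜ.indicator (fun _ => 1) n

theorem off_mem {S : Set J} {n : J} (h : n ∈ S) : off S n = 0 := by simp [off, h]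

theorem off_notMem {S : Set J} {n : J} (h : n ∉ S) : off S n = 1 := by simp [off, h]

theorem off_nonneg (S : Set J) (n : J) : 0 ≤ off S n := by
  by_cases h : n ∈ S
  · rw [off_mem h]
  · rw [off_notMem h]; norm_num

theorem off_le (S : Set J) (n : J) : off S n ≤ 1 := by
  by_cases h : n ∈ S
  · rw [off_mem h]; norm_num
  · rw [off_notMem h]

/-- the proportion of the points of `s` outside `S` -/
noncomputable def out (s : Finset J) (S : Set J) : ℝ := 𝔼 n ∈ s, off S n

theorem out_nonneg (s : Finset J) (S : Set J) : 0 ≤ out s S :=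
  expect_nonneg fun n _ => off_nonneg S n

theorem out_mono (s : Finset J) {S S' : Set J} (h : S ⊆ S') : out s S' ≤ out s S := by
  refine expect_le_expect fun n _ => ?_
  by_cases h1 : n ∈ S
  · rw [off_mem h1, off_mem (h h1)]
  · rw [off_notMem h1]; exact off_le _ _

theorem out_inter (s : Finset J) (S S' : Set J) : out s (S ∩ S') ≤ out s S + out s S' := by
  unfold out
  rw [← expect_add_distrib]
  refine expect_le_expect fun n _ => ?_
  by_cases h1 : n ∈ S
  · by_cases h2 : n ∈ S'
    · rw [off_mem h1, off_mem h2, off_mem (Set.mem_inter h1 h2), add_zero]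
    · rw [off_mem h1, off_notMem h2, zero_add]; exact off_le _ _
  · rw [off_notMem h1]
    exact (off_le _ _).trans (le_add_of_nonneg_right (off_nonneg _ _))

/-- the sets of density one -/
def dens (Ψ : ℕ → Finset J) : Filter J where
  sets := {S | Tendsto (fun N => out (Ψ N) S) atTop (𝓝 0)}
  univ_sets := by simp [out, off]
  sets_of_superset := fun hS h =>
    squeeze_zero (fun _ => out_nonneg _ _) (fun _ => out_mono _ h) hS
  inter_sets := fun hS hS' =>
    squeeze_zero (fun _ => out_nonneg _ _) (fun _ => out_inter _ _ _) (by simpa using hS.add hS')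

theorem mem_dens {Ψ : ℕ → Finset J} {S : Set J} :
    S ∈ dens Ψ ↔ Tendsto (fun N => out (Ψ N) S) atTop (𝓝 0) := Iff.rfl

theorem expect_const_le (s : Finset J) {c : ℝ} (hc : 0 ≤ c) : 𝔼 _n ∈ s, c ≤ c := by
  rcases s.eq_empty_or_nonempty with rfl | h
  · simpa using hc
  · rw [expect_const h]

/-- convergence in density implies convergence of the averages -/
theorem avg_of_dens {Ψ : ℕ → Finset J} {c : J → ℝ} {C : ℝ} (h0 : ∀ n, 0 ≤ c n) (hC : ∀ n, c n ≤ C)
    (h : Tendsto c (dens Ψ) (𝓝 0)) : Tendsto (fun N => 𝔼 n ∈ Ψ N, c n) atTop (𝓝 0) := by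
  rw [Metric.tendsto_nhds]
  intro ε hε
  obtain ⟨S, hS⟩ : ∃ S : Set J, S = {n | c n < ε / 2} := ⟨_, rfl⟩
  have h1 : S ∈ dens Ψ := by
    rw [hS]
    exact (tendsto_order.1 h).2 (ε / 2) (half_pos hε)
  rw [mem_dens] at h1
  have h2 : Tendsto (fun N => ε / 2 + |C| * out (Ψ N) S) atTop
      (𝓝 (ε / 2 + |C| * 0)) := tendsto_const_nhds.add (h1.const_mul _)
  have h3 := (tendsto_order.1 h2).2 ε (by linarith)
  filter_upwards [h3] with N hN
  rw [dist_zero_right, Real.norm_of_nonneg (expect_nonneg fun n _ => h0 n)]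
  have h5 : 𝔼 n ∈ Ψ N, c n ≤ 𝔼 n ∈ Ψ N, (ε / 2 + |C| * off S n) := by
    refine expect_le_expect fun n _ => ?_
    by_cases h4 : n ∈ S
    · rw [off_mem h4, mul_zero, add_zero]
      rw [hS] at h4
      exact le_of_lt h4
    · rw [off_notMem h4, mul_one]
      have := (hC n).trans (le_abs_self C)
      linarith
  rw [expect_add_distrib, ← mul_expect] at h5
  have h6 := expect_const_le (Ψ N) (half_pos hε).le
  have h7 : ε / 2 + |C| * (𝔼 n ∈ Ψ N, off S n) < ε := hN
  linarith

/-- convergence of the averages of a non negative function implies convergence in density -/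
theorem dens_of_avg {Ψ : ℕ → Finset J} {c : J → ℝ} (h0 : ∀ n, 0 ≤ c n)
    (h : Tendsto (fun N => 𝔼 n ∈ Ψ N, c n) atTop (𝓝 0)) : Tendsto c (dens Ψ) (𝓝 0) := by
  rw [Metric.tendsto_nhds]
  intro ε hε
  obtain ⟨S, hS⟩ : ∃ S : Set J, S = {n | dist (c n) 0 < ε} := ⟨_, rfl⟩
  have key : S ∈ dens Ψ := by
    rw [mem_dens]
    have h2 : Tendsto (fun N => ε⁻¹ * 𝔼 n ∈ Ψ N, c n) atTop (𝓝 0) := by
      simpa using h.const_mul ε⁻¹
    refine squeeze_zero (fun _ => out_nonneg _ _) (fun N => ?_) h2
    unfold out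
    rw [mul_expect]
    refine expect_le_expect fun n _ => ?_
    by_cases h4 : n ∈ S
    · rw [off_mem h4]; exact mul_nonneg (by positivity) (h0 n)
    · rw [off_notMem h4]
      rw [hS] at h4
      have h5 : ¬ dist (c n) 0 < ε := h4
      rw [dist_zero_right, Real.norm_of_nonneg (h0 n), not_lt] at h5
      rw [← div_eq_inv_mul, le_div_iff₀ hε]; linarith
  rw [hS] at key
  exact key

/-- averages of a bounded function which converges in density -/
theorem avg_tendsto {𝕜 : Type*} [RCLike 𝕜] {Ψ : ℕ → Finset J} (hΨ : ∀ N, (Ψ N).Nonempty)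
    {c : J → 𝕜} {L : 𝕜} {C : ℝ} (hC : ∀ n, ‖c n‖ ≤ C) (h : Tendsto c (dens Ψ) (𝓝 L)) :
    Tendsto (fun N => 𝔼 n ∈ Ψ N, c n) atTop (𝓝 L) := by
  rw [tendsto_iff_norm_sub_tendsto_zero] at h ⊢
  have h1 := avg_of_dens (C := C + ‖L‖) (fun n => norm_nonneg _)
    (fun n => (norm_sub_le _ _).trans (add_le_add (hC n) le_rfl)) h
  refine squeeze_zero (fun _ => norm_nonneg _) (fun N => ?_) h1
  have h2 : (𝔼 n ∈ Ψ N, c n) - L = 𝔼 n ∈ Ψ N, (c n - L) := by
    rw [expect_sub_distrib, expect_const (hΨ N)]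
  rw [h2]
  exact RCLike.norm_expect_le (K := 𝕜)

theorem tendsto_fst_dens {K : Type*} (Φ : ℕ → Finset J) (Ψ : ℕ → Finset K) :
    Tendsto Prod.fst (dens fun N => Φ N ×ˢ Ψ N) (dens Φ) := by
  intro S hS
  rw [Filter.mem_map, mem_dens]
  refine squeeze_zero (fun _ => out_nonneg _ _) (fun N => ?_) (mem_dens.1 hS)
  unfold out
  rw [expect_product]
  refine expect_le_expect fun n _ => ?_
  exact expect_const_le (Ψ N) (off_nonneg S n)

theorem tendsto_snd_dens {K : Type*} (Φ : ℕ → Finset J) (Ψ : ℕ → Finset K) :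
    Tendsto Prod.snd (dens fun N => Φ N ×ˢ Ψ N) (dens Ψ) := by
  intro S hS
  rw [Filter.mem_map, mem_dens]
  refine squeeze_zero (fun _ => out_nonneg _ _) (fun N => ?_) (mem_dens.1 hS)
  unfold out
  rw [expect_product, expect_comm]
  refine expect_le_expect fun n _ => ?_
  exact expect_const_le (Φ N) (off_nonneg S n)

/-- the proportion of the points outside `{n | ¬ p n}` is the proportion of `{n | p n}` -/
theorem out_not (s : Finset J) (p : J → Prop) [DecidablePred p] :
    out s {n | ¬ p n} = (#{n ∈ s | p n} : ℝ) / #s := by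
  unfold out
  rw [expect_eq_sum_div_card]
  congr 1
  rw [card_filter]
  push_cast
  refine sum_congr rfl fun n _ => ?_
  by_cases h : p n <;> simp [h, off]

theorem dens_not_iff {Ψ : ℕ → Finset J} (hΨ : ∀ N, (Ψ N).Nonempty) (p : J → Prop)
    [DecidablePred p] : (∀ᶠ n in dens Ψ, ¬ p n) ↔
      ∀ ε : ℝ, 0 < ε → ∀ᶠ N in atTop, (#{n ∈ Ψ N | p n} : ℝ) ≤ ε * #(Ψ N) := by
  change {n | ¬ p n} ∈ dens Ψ ↔ _
  rw [mem_dens]
  have hpos : ∀ N, (0 : ℝ) < #(Ψ N) := fun N => by exact_mod_cast (hΨ N).card_pos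
  simp only [out_not]
  constructor
  · intro h ε hε
    filter_upwards [h.eventually (Iic_mem_nhds hε)] with N hN
    exact (div_le_iff₀ (hpos N)).1 hN
  · intro h
    rw [Metric.tendsto_nhds]
    intro ε hε
    filter_upwards [h (ε / 2) (by positivity)] with N hN
    rw [dist_zero_right, Real.norm_of_nonneg (by positivity), div_lt_iff₀ (hpos N)]
    nlinarith [hpos N]

end Vale.Agent.N102
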