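import Vale.Agent.P102.H787.Local
import Vale.Agent.N102.Defs
import Vale.Agent.N102.Dens

/-! The local theorem for bounded functions and any finite index set. -/

open MeasureTheory Filter Topology Finset
open scoped BigOperators ENNReal

set_option linter.unusedSectionVars false

namespace Vale.Agent.N102

open Vale.Agent.P102.SF (BM)

variable {Ω : Type*} [MeasurableSpace Ω] {μ : Measure Ω} [IsProbabilityMeasure μ] {T : Ω ≃ᵐ Ω}
  {J : Type*}

theorem iter_eq (T : Ω ≃ᵐ Ω) (n : ℤ) : iter T n = P102.RM.it T n := rfl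

theorem measurable_iter (T : Ω ≃ᵐ Ω) (n : ℤ) : Measurable (iter T n) := P102.RM.measurable_it T n

omit [IsProbabilityMeasure μ] in
theorem mp_iter (hT : MeasurePreserving T μ μ) (n : ℤ) : MeasurePreserving (iter T n) μ μ :=
  P102.RM.mp_it T hT n

theorem iter_add (T : Ω ≃ᵐ Ω) (m n : ℤ) (x : Ω) : iter T (m + n) x = iter T m (iter T n x) :=
  P102.RM.it_add T m n x

theorem iter_zero (T : Ω ≃ᵐ Ω) (x : Ω) : iter T 0 x = x := P102.RM.it_zero T x

theorem iter_nat (T : Ω ≃ᵐ Ω) (m : ℕ) : iter T m = T^[m] := by
  induction m with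
  | zero => funext x; simpa using iter_zero T x
  | succ m ih =>
    funext x
    rw [Function.iterate_succ_apply', ← ih, Nat.cast_succ]
    exact P102.RM.it_succ T m x

omit [IsProbabilityMeasure μ] in
theorem real_iter (hT : MeasurePreserving T μ μ) (n : ℤ) {A : Set Ω} (hA : MeasurableSet A) :
    μ.real (iter T n ⁻¹' A) = μ.real A := by
  rw [measureReal_def, measureReal_def, (mp_iter hT n).measure_preimage hA.nullMeasurableSet]

omit [IsProbabilityMeasure μ] in
/-- only the difference of the two times matters -/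
theorem real_pair (hT : MeasurePreserving T μ μ) (s s' : ℤ) {A B : Set Ω} (hA : MeasurableSet A)
    (hB : MeasurableSet B) :
    μ.real (iter T s ⁻¹' A ∩ iter T s' ⁻¹' B) = μ.real (A ∩ iter T (s' - s) ⁻¹' B) := by
  rw [← real_iter hT s (hA.inter (measurable_iter T _ hB))]
  congr 1
  ext x
  simp only [Set.mem_inter_iff, Set.mem_preimage, ← iter_add, sub_add_cancel]

/-- the complex indicator function -/
noncomputable def ind (A : Set Ω) : Ω → ℂ := A.indicator fun _ => 1

theorem bm_ind {A : Set Ω} (hA : MeasurableSet A) : BM (ind A) := by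
  refine ⟨measurable_const.indicator hA, 1, fun x => ?_⟩
  by_cases h : x ∈ A <;> simp [ind, h]

omit [IsProbabilityMeasure μ] in
theorem integral_ind {A : Set Ω} (hA : MeasurableSet A) : ∫ x, ind A x ∂μ = μ.real A := by
  unfold ind
  rw [integral_indicator_const _ hA]
  simp

omit [IsProbabilityMeasure μ] in
theorem integral_comp_mp {g : Ω → Ω} (hg : MeasurePreserving g μ μ) {E : Type*}
    [NormedAddCommGroup E] [NormedSpace ℝ E] {f : Ω → E} (hf : AEStronglyMeasurable f μ) :
    ∫ x, f (g x) ∂μ = ∫ x, f x ∂μ := by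
  have h1 : AEStronglyMeasurable f (μ.map g) := by rw [hg.map_eq]; exact hf
  rw [← integral_map hg.measurable.aemeasurable h1, hg.map_eq]

/-- from indicator functions to integrable functions -/
theorem ext_one (l : Filter J) (g : J → Ω → Ω) (hg : ∀ n, MeasurePreserving (g n) μ μ)
    (R : J → Ω → ℂ) (hR : ∀ n, Measurable (R n)) {C : ℝ} (hC : ∀ n x, ‖R n x‖ ≤ C) (c : ℂ)
    (h : ∀ A, MeasurableSet A →
      Tendsto (fun n => ∫ x, ind A (g n x) * R n x ∂μ) l (𝓝 (μ.real A * c)))
    (f : Ω → ℂ) (hf : Integrable f μ) :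
    Tendsto (fun n => ∫ x, f (g n x) * R n x ∂μ) l (𝓝 ((∫ x, f x ∂μ) * c)) := by
  have hint : ∀ (f : Ω → ℂ), Integrable f μ → ∀ n, Integrable (fun x => f (g n x) * R n x) μ :=
    fun f hf n => ((hg n).integrable_comp_of_integrable hf).mul_bdd (hR n).aestronglyMeasurable
      (Eventually.of_forall (hC n))
  refine Integrable.induction (fun f : Ω → ℂ =>
    Tendsto (fun n => ∫ x, f (g n x) * R n x ∂μ) l (𝓝 ((∫ x, f x ∂μ) * c))) ?_ ?_ ?_ ?_ hf
  · intro a A hA _
    have h1 := (h A hA).const_mul a
    have h2 : ∀ y, A.indicator (fun _ => a) y = a * ind A y := by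
      intro y; by_cases hy : y ∈ A <;> simp [ind, hy]
    simp only [h2, mul_assoc, integral_const_mul, integral_ind hA]
    exact h1
  · intro f₁ f₂ _ h1 h2 h3 h4
    have h5 := h3.add h4
    simp only [Pi.add_apply, add_mul]
    rw [integral_add h1 h2, add_mul]
    refine h5.congr fun n => ?_
    rw [integral_add (hint _ h1 n) (hint _ h2 n)]
  · have hL : ∀ n, LipschitzWith ⟨|C|, abs_nonneg C⟩
        (fun f : Ω →₁[μ] ℂ => ∫ x, f (g n x) * R n x ∂μ) := by
      intro n
      refine LipschitzWith.of_dist_le_mul fun f₁ f₂ => ?_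
      rw [dist_eq_norm, ← integral_sub (hint _ (L1.integrable_coeFn f₁) n)
        (hint _ (L1.integrable_coeFn f₂) n), L1.dist_eq_integral_dist]
      have h1 : Integrable (fun y => dist (f₁ y) (f₂ y)) μ := by
        simp only [dist_eq_norm]
        exact ((L1.integrable_coeFn f₁).sub (L1.integrable_coeFn f₂)).norm
      rw [← integral_comp_mp (hg n) h1.aestronglyMeasurable, ← integral_const_mul]
      refine norm_integral_le_of_norm_le
        (((hg n).integrable_comp_of_integrable h1).const_mul _) (Eventually.of_forall fun x => ?_)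
      rw [← sub_mul, norm_mul, dist_eq_norm, mul_comm]
      exact mul_le_mul_of_nonneg_right ((hC n x).trans (le_abs_self C)) (norm_nonneg _)
    exact (LipschitzWith.uniformEquicontinuous _ _ hL).equicontinuous.isClosed_setOfPred_tendsto
      (continuous_integral.mul continuous_const)
  · intro f₁ f₂ h12 _ h1
    rw [← integral_congr_ae h12]
    refine h1.congr fun n => integral_congr_ae ?_
    filter_upwards [(hg n).quasiMeasurePreserving.ae h12] with x hx
    rw [hx]

/-- pairwise asymptotic independence of the times `t n i` along `l` -/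
def PairInd (μ : Measure Ω) (T : Ω ≃ᵐ Ω) {κ : Type*} (l : Filter J) (t : J → κ → ℤ) : Prop :=
  ∀ i j, i ≠ j → ∀ A B : Set Ω, MeasurableSet A → MeasurableSet B →
    Tendsto (fun n => μ.real (iter T (t n i) ⁻¹' A ∩ iter T (t n j) ⁻¹' B)) l
      (𝓝 (μ.real A * μ.real B))

/-- the local theorem for sets -/
theorem local_set (hT : MeasurePreserving T μ μ) {κ : Type*} [Fintype κ] {l : Filter J}
    {t : J → κ → ℤ} (h : PairInd μ T l t) (A : κ → Set Ω) (hA : ∀ i, MeasurableSet (A i)) :
    Tendsto (fun n => μ.real (⋂ i, iter T (t n i) ⁻¹' A i)) l (𝓝 (∏ i, μ.real (A i))) := by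
  let e := (Fintype.equivFin κ).symm
  have h1 := P102.H787.local_rokhlin μ T hT (l := map (fun n i => t n (e i)) l)
    (fun i j hij B C hB hC => tendsto_map'_iff.2
      (h (e i) (e j) (fun h => hij (e.injective h)) B C hB hC)) (fun i => A (e i))
    (fun i => hA _)
  rw [tendsto_map'_iff, e.prod_comp fun i => μ.real (A i)] at h1
  refine h1.congr fun n => ?_
  simp only [Function.comp_apply]
  congr 1
  exact e.surjective.iInter_comp fun i => iter T (t n i) ⁻¹' A i

/-- the local theorem for bounded measurable functions -/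
theorem local_fun (hT : MeasurePreserving T μ μ) {κ : Type*} [Fintype κ] {l : Filter J}
    {t : J → κ → ℤ} (h : PairInd μ T l t) (f : κ → Ω → ℂ) (hf : ∀ i, BM (f i)) :
    Tendsto (fun n => ∫ x, ∏ i, f i (iter T (t n i) x) ∂μ) l (𝓝 (∏ i, ∫ x, f i x ∂μ)) := by
  classical
  have key : ∀ s : Finset κ, ∀ f : κ → Ω → ℂ, (∀ i, BM (f i)) →
      (∀ i ∉ s, ∃ A, MeasurableSet A ∧ f i = ind A) →
      Tendsto (fun n => ∫ x, ∏ i, f i (iter T (t n i) x) ∂μ) l (𝓝 (∏ i, ∫ x, f i x ∂μ)) := by
    intro s
    induction s using Finset.induction_on with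
    | empty =>
      intro f _ hs
      choose A hA hfA using fun i => hs i (notMem_empty i)
      have h1 := (Complex.continuous_ofReal.tendsto _).comp (local_set hT h A hA)
      simp only [hfA, integral_ind (hA _)]
      rw [Complex.ofReal_prod] at h1
      refine h1.congr fun n => ?_
      simp only [Function.comp_apply]
      rw [← integral_ind (MeasurableSet.iInter fun i => measurable_iter T _ (hA i))]
      congr 1
      funext x
      by_cases hx : x ∈ ⋂ i, iter T (t n i) ⁻¹' A i
      · have h2 : ∀ i, iter T (t n i) x ∈ A i := fun i => Set.mem_iInter.1 hx i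
        simp [ind, hx, h2]
      · obtain ⟨i, hi⟩ : ∃ i, iter T (t n i) x ∉ A i := by simpa using hx
        rw [prod_eq_zero (mem_univ i) (by simp [ind, hi])]
        simp only [ind]
        exact Set.indicator_of_notMem hx _
    | insert a s _ ih =>
      intro f hf hs
      choose hfm C hC using hf
      have h1 := ext_one l (fun n => iter T (t n a)) (fun n => mp_iter hT _)
        (fun n x => ∏ i ∈ univ.erase a, f i (iter T (t n i) x))
        (fun n => Finset.measurable_prod _ fun i _ => (hfm i).comp (measurable_iter T _))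
        (C := ∏ i ∈ univ.erase a, C i)
        (fun n x => by
          rw [norm_prod]
          exact prod_le_prod (fun i _ => norm_nonneg _) fun i _ => hC i _)
        (∏ i ∈ univ.erase a, ∫ x, f i x ∂μ) ?_ (f a) (BM.integrable ⟨hfm a, C a, hC a⟩)
      · simp only [mul_prod_erase univ (fun i => ∫ x, f i x ∂μ) (mem_univ a)] at h1
        refine h1.congr fun n => ?_
        congr 1
        funext x
        exact mul_prod_erase univ (fun i => f i (iter T (t n i) x)) (mem_univ a)
      · intro A hA
        have h2 := ih (Function.update f a (ind A)) (fun i => by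
          rcases eq_or_ne i a with rfl | hi
          · rw [Function.update_self]; exact bm_ind hA
          · rw [Function.update_of_ne hi]; exact ⟨hfm i, C i, hC i⟩) (fun i hi => by
          rcases eq_or_ne i a with rfl | hia
          · exact ⟨A, hA, Function.update_self ..⟩
          · rw [Function.update_of_ne hia]
            exact hs i (by simp [hia, hi]))
        rw [← mul_prod_erase univ _ (mem_univ a), Function.update_self, integral_ind hA,
          prod_congr rfl fun i hi => by rw [Function.update_of_ne (ne_of_mem_erase hi)]] at h2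
        refine h2.congr fun n => ?_
        congr 1
        funext x
        rw [← mul_prod_erase univ _ (mem_univ a), Function.update_self,
          prod_congr rfl fun i hi => by rw [Function.update_of_ne (ne_of_mem_erase hi)]]
  exact key univ f hf fun i hi => absurd (mem_univ i) hi

omit [IsProbabilityMeasure μ] in
/-- an essentially bounded function has a bounded measurable version -/
theorem exists_bm {f : Ω → ℂ} (hf : MemLp f ∞ μ) : ∃ g, BM g ∧ f =ᵐ[μ] g := by
  obtain ⟨C, hC⟩ : ∃ C : ℝ, ∀ᵐ x ∂μ, ‖f x‖ ≤ C := by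
    refine ⟨(eLpNormEssSup f μ).toReal, ?_⟩
    have h1 : eLpNormEssSup f μ ≠ ∞ := by
      have := hf.2.ne
      rwa [eLpNorm_exponent_top] at this
    filter_upwards [ae_le_eLpNormEssSup (f := f) (μ := μ)] with x hx
    rw [← toReal_enorm]
    exact ENNReal.toReal_mono h1 hx
  have hm := hf.1.stronglyMeasurable_mk.measurable
  refine ⟨{x | ‖hf.1.mk f x‖ ≤ C}.indicator (hf.1.mk f),
    ⟨hm.indicator (measurableSet_le hm.norm measurable_const), |C|, fun x => ?_⟩, ?_⟩
  · by_cases hx : x ∈ {x | ‖hf.1.mk f x‖ ≤ C}
    · rw [Set.indicator_of_mem hx]; exact le_trans hx (le_abs_self C)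
    · rw [Set.indicator_of_notMem hx, norm_zero]; exact abs_nonneg C
  · filter_upwards [hC, hf.1.ae_eq_mk] with x h1 h2
    rw [Set.indicator_of_mem (by rw [Set.mem_ofPred_eq, ← h2]; exact h1), h2]

theorem memLp_of_bm {f : Ω → ℂ} (hf : BM f) : MemLp f ∞ μ := by
  obtain ⟨h1, C, h2⟩ := hf
  exact memLp_top_of_bound h1.aestronglyMeasurable C (Eventually.of_forall h2)

end Vale.Agent.N102
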