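import Vale.Agent.N102.VdC

/-! Joint ergodicity: the `L²` form of the local theorem. -/

open MeasureTheory Filter Topology Finset
open scoped BigOperators ENNReal ComplexConjugate

set_option linter.unusedSectionVars false

namespace Vale.Agent.N102

open Vale.Agent.P102.SF (BM)

variable {Ω : Type*} [MeasurableSpace Ω] {μ : Measure Ω} [IsProbabilityMeasure μ] {T : Ω ≃ᵐ Ω}
  {I : Type*} {Φ : ℕ → Finset I} {k : ℕ}

theorem l2_iff {F : ℕ → Ω → ℂ} (hF : ∀ N, BM (F N)) :
    Tendsto (fun N => eLpNorm (F N) 2 μ) atTop (𝓝 0) ↔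
      Tendsto (fun N => ∫ x, ‖F N x‖ ^ 2 ∂μ) atTop (𝓝 0) := by
  have h1 : ∀ N, eLpNorm (F N) 2 μ = ENNReal.ofReal (√(∫ x, ‖F N x‖ ^ 2 ∂μ)) := by
    intro N
    rw [((memLp_of_bm (hF N)).mono_exponent le_top).eLpNorm_eq_integral_rpow_norm two_ne_zero
      ENNReal.ofNat_ne_top, Real.sqrt_eq_rpow]
    simp
  simp only [h1]
  constructor
  · intro h
    have h2 := ((ENNReal.tendsto_toReal ENNReal.zero_ne_top).comp h).pow 2
    simp only [ENNReal.toReal_zero, ne_eq, OfNat.ofNat_ne_zero, not_false_eq_true, zero_pow] at h2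
    refine h2.congr fun N => ?_
    simp only [Function.comp_apply]
    rw [ENNReal.toReal_ofReal (Real.sqrt_nonneg _),
      Real.sq_sqrt (integral_nonneg fun x => by positivity)]
  · intro h
    have h2 := ENNReal.tendsto_ofReal ((Real.continuous_sqrt.tendsto 0).comp h)
    simpa using h2

/-- joint ergodicity tested on bounded measurable functions -/
def JE (μ : Measure Ω) (T : Ω ≃ᵐ Ω) (Φ : ℕ → Finset I) (a : Fin k → I → ℤ) : Prop :=
  ∀ f : Fin k → Ω → ℂ, (∀ i, BM (f i)) →
    Tendsto (fun N => ∫ x, ‖(𝔼 n ∈ Φ N, ∏ i, f i (iter T (a i n) x)) - ∏ i, ∫ y, f i y ∂μ‖ ^ 2 ∂μ)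
      atTop (𝓝 0)

theorem bm_prod {κ : Type*} [Fintype κ] {f : κ → Ω → ℂ} (hf : ∀ i, BM (f i)) (t : κ → ℤ) :
    BM fun x => ∏ i, f i (iter T (t i) x) :=
  BM.prod _ fun i _ => (hf i).comp (measurable_iter T _)

theorem je_iff (hT : MeasurePreserving T μ μ) {a : Fin k → I → ℤ} :
    JointlyErgodic μ T Φ a ↔ JE μ T Φ a := by
  have hb : ∀ f : Fin k → Ω → ℂ, (∀ i, BM (f i)) → ∀ N, BM fun x =>
      (𝔼 n ∈ Φ N, ∏ i, f i (iter T (a i n) x)) - ∏ i, ∫ y, f i y ∂μ :=
    fun f hf N => (bm_expect _ fun n => bm_prod hf _).sub (BM.const _)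
  constructor
  · intro h f hf
    exact (l2_iff (hb f hf)).1 (h f fun i => memLp_of_bm (hf i))
  · intro h f hf
    choose g hg hfg using fun i => exists_bm (hf i)
    refine ((l2_iff (hb g hg)).2 (h g hg)).congr fun N => eLpNorm_congr_ae ?_
    have h1 : ∀ᵐ x ∂μ, ∀ n ∈ Φ N, ∀ i, f i (iter T (a i n) x) = g i (iter T (a i n) x) := by
      rw [eventually_all_finset]
      intro n _
      rw [eventually_all]
      intro i
      exact (mp_iter hT _).quasiMeasurePreserving.ae (hfg i)
    filter_upwards [h1] with x hx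
    congr 1
    · exact expect_congr rfl fun n hn => prod_congr rfl fun i _ => (hx n hn i).symm
    · exact prod_congr rfl fun i _ => integral_congr_ae (hfg i).symm

/-- the doubled family of times -/
def dbl (a : Fin k → I → ℤ) (p : I × I) : Fin k ⊕ Fin k → ℤ :=
  Sum.elim (fun i => a i p.1) (fun i => a i p.2)

/-- **the `L²` form of the local theorem** -/
theorem je_of_pairInd (hT : MeasurePreserving T μ μ) (hΦ : ∀ N, (Φ N).Nonempty)
    {a : Fin k → I → ℤ} (h : PairInd μ T (dens fun N => Φ N ×ˢ Φ N) (dbl a)) : JE μ T Φ a := by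
  intro f hf
  obtain ⟨c, hc⟩ : ∃ c, c = ∏ i, ∫ y, f i y ∂μ := ⟨_, rfl⟩
  obtain ⟨P, hP⟩ : ∃ P : I → Ω → ℂ, ∀ n x, P n x = ∏ i, f i (iter T (a i n) x) :=
    ⟨_, fun _ _ => rfl⟩
  have hPb : ∀ n, BM (P n) := fun n => by
    rw [show P n = fun x => ∏ i, f i (iter T (a i n) x) from funext (hP n)]
    exact bm_prod hf _
  have hone : BM fun _ : Ω => (1 : ℂ) := BM.const 1
  have hG : ∀ u v : Fin k → Ω → ℂ, (∀ i, BM (u i)) → (∀ i, BM (v i)) →
      Tendsto (fun p : I × I => ∫ x, (∏ i, u i (iter T (a i p.1) x)) *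
        ∏ i, v i (iter T (a i p.2) x) ∂μ) (dens fun N => Φ N ×ˢ Φ N)
        (𝓝 ((∏ i, ∫ y, u i y ∂μ) * ∏ i, ∫ y, v i y ∂μ)) := by
    intro u v hu hv
    have h1 := local_fun hT h (Sum.elim u v) (fun i => by cases i <;> simp [hu, hv])
    simpa only [Fintype.prod_sum_type, Sum.elim_inl, Sum.elim_inr, dbl] using h1
  have hcc : ∏ i, ∫ y, conj (f i y) ∂μ = conj c := by
    simp only [integral_conj, hc, map_prod]
  have h1 := hG f (fun i y => conj (f i y)) hf fun i => (hf i).conj
  have h2 := hG f (fun _ _ => 1) hf fun _ => hone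
  have h3 := hG (fun _ _ => 1) (fun i y => conj (f i y)) (fun _ => hone) fun i => (hf i).conj
  simp only [← map_prod, ← hP, ← hc, hcc, prod_const_one, mul_one, one_mul, integral_const,
    probReal_univ, one_smul] at h1 h2 h3
  have h4 : Tendsto (fun p : I × I => ∫ x, (P p.1 x - c) * conj (P p.2 x - c) ∂μ)
      (dens fun N => Φ N ×ˢ Φ N) (𝓝 0) := by
    have h5 := ((h1.sub (h2.mul_const (conj c))).sub (h3.const_mul c)).add_const (c * conj c)
    rw [show c * conj c - c * conj c - c * conj c + c * conj c = 0 by ring] at h5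
    refine h5.congr fun p => ?_
    have b1 := (hPb p.1).mul (hPb p.2).conj
    have b2 := (hPb p.1).mul (BM.const (conj c))
    have b3 := (BM.const c).mul (hPb p.2).conj
    have b4 : BM fun _ : Ω => -(c * conj c) := BM.const _
    have h6 : c * conj c = -∫ _x, -(c * conj c) ∂μ := by simp
    rw [← integral_mul_const, ← integral_const_mul, ← integral_sub b1.integrable b2.integrable,
      ← integral_sub (b1.sub b2).integrable b3.integrable, h6, ← sub_eq_add_neg,
      ← integral_sub ((b1.sub b2).sub b3).integrable b4.integrable]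
    congr 1
    funext x
    simp only [map_sub]
    ring
  choose hfm C hC using hf
  have hPC : ∀ n x, ‖P n x - c‖ ≤ ∏ i, C i + ‖c‖ := by
    intro n x
    refine (norm_sub_le _ _).trans (add_le_add ?_ le_rfl)
    rw [hP, norm_prod]
    exact prod_le_prod (fun i _ => norm_nonneg _) fun i _ => hC i _
  have h7 := avg_tendsto (fun N => (hΦ N).product (hΦ N))
    (C := (∏ i, C i + ‖c‖) * (∏ i, C i + ‖c‖)) (fun p => by
      refine (norm_integral_le_of_norm_le_const (C := (∏ i, C i + ‖c‖) * (∏ i, C i + ‖c‖))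
        (Eventually.of_forall fun x => ?_)).trans (by simp)
      rw [norm_mul, RCLike.norm_conj]
      exact mul_le_mul (hPC _ _) (hPC _ _) (norm_nonneg _) ((norm_nonneg _).trans (hPC p.1 x))) h4
  have h8 := (Complex.continuous_re.tendsto _).comp h7
  rw [Complex.zero_re] at h8
  refine h8.congr fun N => ?_
  simp only [Function.comp_apply]
  rw [← normSq_expect (Φ N) (P := fun n x => P n x - c) fun n => (hPb n).sub (BM.const c),
    Complex.ofReal_re]
  simp only [expect_sub_distrib, expect_const (hΦ N), hP, hc]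

theorem tendsto_of_l2 {F : ℕ → Ω → ℂ} (hF : ∀ N, BM (F N))
    (h : Tendsto (fun N => ∫ x, ‖F N x‖ ^ 2 ∂μ) atTop (𝓝 0)) :
    Tendsto (fun N => ∫ x, ‖F N x‖ ∂μ) atTop (𝓝 0) := by
  have h1 := (Real.continuous_sqrt.tendsto 0).comp h
  rw [Real.sqrt_zero] at h1
  refine squeeze_zero (fun N => integral_nonneg fun x => norm_nonneg _) (fun N => ?_) h1
  obtain ⟨hm, C, hC⟩ := hF N
  exact Real.le_sqrt_of_sq_le (P102.Ext.sq_integral_norm_le (μ := μ) _ hm hC)

/-- testing an `L²` convergent sequence against bounded functions -/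
theorem l2_test {F : ℕ → Ω → ℂ} (hb : ∀ N, BM (F N)) {c : ℂ}
    (h : Tendsto (fun N => ∫ x, ‖F N x - c‖ ^ 2 ∂μ) atTop (𝓝 0))
    (v : ℕ → Ω → ℂ) (hv : ∀ N, Measurable (v N)) (hv1 : ∀ N x, ‖v N x‖ ≤ 1) (d : ℂ)
    (hd : ∀ N, ∫ x, v N x ∂μ = d) :
    Tendsto (fun N => ∫ x, F N x * v N x ∂μ) atTop (𝓝 (c * d)) := by
  have h1 := tendsto_of_l2 (fun N => (hb N).sub (BM.const _)) h
  rw [tendsto_iff_norm_sub_tendsto_zero]
  refine squeeze_zero (fun _ => norm_nonneg _) (fun N => ?_) h1
  have hvb : BM (v N) := ⟨hv N, 1, hv1 N⟩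
  rw [← hd N, ← integral_const_mul, ← integral_sub ((hb N).mul hvb).integrable
    ((BM.const _).mul hvb).integrable]
  refine norm_integral_le_of_norm_le ((hb N).sub (BM.const _)).integrable.norm
    (Eventually.of_forall fun x => ?_)
  rw [← sub_mul, norm_mul]
  exact mul_le_of_le_one_right (norm_nonneg _) (hv1 N x)

/-- ergodicity of one sequence, tested on indicator functions -/
def JEi (μ : Measure Ω) (T : Ω ≃ᵐ Ω) (Φ : ℕ → Finset I) (b : I → ℤ) : Prop :=
  ∀ A : Set Ω, MeasurableSet A →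
    Tendsto (fun N => ∫ x, ‖(𝔼 n ∈ Φ N, ind (iter T (b n) ⁻¹' A) x) - μ.real A‖ ^ 2 ∂μ) atTop (𝓝 0)

theorem JE.jei {b : I → ℤ} (h : JE μ T Φ ![b]) : JEi μ T Φ b := by
  intro A hA
  have h1 := h (fun _ => ind A) fun _ => bm_ind hA
  simp only [Fin.prod_univ_one, integral_ind hA, Matrix.cons_val_zero] at h1
  exact h1

theorem ind_mul (A B : Set Ω) (x : Ω) : ind A x * ind B x = ind (A ∩ B) x := by
  by_cases hA : x ∈ A <;> by_cases hB : x ∈ B <;> simp [ind, hA, hB]

theorem ind_comp (A : Set Ω) (g : Ω → Ω) (x : Ω) : ind A (g x) = ind (g ⁻¹' A) x := rfl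

theorem norm_ind_le (A : Set Ω) (x : Ω) : ‖ind A x‖ ≤ 1 := by
  by_cases h : x ∈ A <;> simp [ind, h]

theorem real_of_complex {u : ℕ → ℝ} {c : ℝ}
    (h : Tendsto (fun N => (u N : ℂ)) atTop (𝓝 (c : ℂ))) : Tendsto u atTop (𝓝 c) :=
  (Complex.continuous_re.tendsto _).comp h

/-- an ergodic sequence is independent on average of any other sequence with a free parameter -/
theorem mean_cross (hT : MeasurePreserving T μ μ) (hΦ : ∀ N, (Φ N).Nonempty) {b : I → ℤ}
    (h : JEi μ T Φ b) (b' : I → ℤ) (A B : Set Ω) (hA : MeasurableSet A) (hB : MeasurableSet B) :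
    Tendsto (fun N => 𝔼 p ∈ Φ N ×ˢ Φ N, μ.real (iter T (b p.1) ⁻¹' A ∩ iter T (b' p.2) ⁻¹' B))
      atTop (𝓝 (μ.real A * μ.real B)) := by
  have hb : ∀ m, BM (ind (iter T (b' m) ⁻¹' B)) := fun m => bm_ind (measurable_iter T _ hB)
  have h1 := l2_test (fun N => bm_expect _ fun n => bm_ind (measurable_iter T _ hA)) (h A hA)
    (fun N x => 𝔼 m ∈ Φ N, ind (iter T (b' m) ⁻¹' B) x) (fun N => (bm_expect _ hb).1)
    (fun N x => (RCLike.norm_expect_le (K := ℂ)).trans
      (expect_le (hΦ N) fun m _ => norm_ind_le _ _)) (μ.real B) (fun N => by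
      rw [integral_expect _ _ fun m => (hb m).integrable]
      simp only [integral_ind (measurable_iter T _ hB), real_iter hT _ hB]
      exact expect_const (hΦ N) _)
  apply real_of_complex
  rw [Complex.ofReal_mul]
  refine h1.congr fun N => ?_
  simp only [expect_mul_expect, ind_mul]
  rw [Complex.ofReal_expect, expect_product,
    integral_expect _ _ fun n => (bm_expect _ fun m =>
      bm_ind ((measurable_iter T _ hA).inter (measurable_iter T _ hB))).integrable]
  refine expect_congr rfl fun n _ => ?_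
  rw [integral_expect _ _ fun m =>
    (bm_ind ((measurable_iter T _ hA).inter (measurable_iter T _ hB))).integrable]
  exact expect_congr rfl fun m _ =>
    integral_ind ((measurable_iter T _ hA).inter (measurable_iter T _ hB))

theorem weak_of_pair (hT : MeasurePreserving T μ μ) {b b' : I → ℤ} (h : JE μ T Φ ![b, b']) :
    WeaklyErgodic μ T Φ (b - b') := by
  intro A B hA hB
  have hf : ∀ i, BM (![ind B, ind A] i) := fun i => by
    fin_cases i
    · exact bm_ind hB
    · exact bm_ind hA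
  have h1 := l2_test (fun N => bm_expect _ fun n => bm_prod hf _) (h _ hf)
    (fun _ _ => 1) (fun _ => measurable_const) (fun _ _ => by simp) 1 (fun _ => by simp)
  apply real_of_complex
  simp only [Fin.prod_univ_two, Matrix.cons_val_zero, Matrix.cons_val_one, integral_ind hA,
    integral_ind hB, mul_one] at h1
  rw [Complex.ofReal_mul, mul_comm]
  refine h1.congr fun N => ?_
  simp only [ind_comp, ind_mul]
  rw [Complex.ofReal_expect, integral_expect _ _ fun m =>
    (bm_ind ((measurable_iter T _ hB).inter (measurable_iter T _ hA))).integrable]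
  refine expect_congr rfl fun n _ => ?_
  rw [integral_ind ((measurable_iter T _ hB).inter (measurable_iter T _ hA)), Set.inter_comm,
    real_pair hT _ _ hA hB, Pi.sub_apply]

theorem JEi.weak {b : I → ℤ} (h : JEi μ T Φ b) : WeaklyErgodic μ T Φ b := by
  intro A B hA hB
  have h1 := l2_test (fun N => bm_expect _ fun n => bm_ind (measurable_iter T _ hB)) (h B hB)
    (fun _ => ind A) (fun _ => (bm_ind hA).1) (fun _ => norm_ind_le A) _ (fun _ => integral_ind hA)
  apply real_of_complex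
  rw [Complex.ofReal_mul, mul_comm]
  refine h1.congr fun N => ?_
  simp only [expect_mul, ind_mul]
  rw [Complex.ofReal_expect, integral_expect _ _ fun m =>
    (bm_ind ((measurable_iter T _ hB).inter hA)).integrable]
  refine expect_congr rfl fun n _ => ?_
  rw [integral_ind ((measurable_iter T _ hB).inter hA), Set.inter_comm]

/-- joint ergodicity passes to subfamilies -/
theorem JE.sub {m : ℕ} {a : Fin k → I → ℤ} (h : JE μ T Φ a) {e : Fin m → Fin k}
    (he : Function.Injective e) : JE μ T Φ fun j => a (e j) := by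
  intro f hf
  have h1 := h (Function.extend e f fun _ _ => 1) (fun i => by
    by_cases hi : ∃ j, e j = i
    · obtain ⟨j, rfl⟩ := hi
      rw [he.extend_apply]; exact hf j
    · rw [Function.extend_apply' _ _ _ hi]; exact BM.const 1)
  refine h1.congr fun N => ?_
  congr 1
  funext x
  congr 3
  · refine expect_congr rfl fun n _ => (Fintype.prod_of_injective e he _ _ ?_ ?_).symm
    · intro i hi
      rw [Function.extend_apply' _ _ _ hi]
    · intro j
      rw [he.extend_apply]
  · refine (Fintype.prod_of_injective e he _ _ ?_ ?_).symm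
    · intro i hi
      rw [Function.extend_apply' _ _ _ hi]
      simp
    · intro j
      rw [he.extend_apply]

theorem JE.one {a : Fin k → I → ℤ} (h : JE μ T Φ a) (i : Fin k) : JE μ T Φ ![a i] := by
  have h1 := h.sub (e := ![i]) (Function.injective_of_subsingleton _)
  convert h1 using 1
  funext j
  fin_cases j
  rfl

theorem JE.two {a : Fin k → I → ℤ} (h : JE μ T Φ a) {i j : Fin k} (hij : i ≠ j) :
    JE μ T Φ ![a i, a j] := by
  have h1 := h.sub (e := ![i, j]) (by
    intro x y hxy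
    fin_cases x <;> fin_cases y <;> simp_all [eq_comm])
  convert h1 using 1
  funext l
  fin_cases l <;> rfl

/-- pairwise independence in density from weak ergodicity of the differences -/
theorem pairInd_of_weak (hT : MeasurePreserving T μ μ) (hW : WM μ T) (hΦ : ∀ N, (Φ N).Nonempty)
    {a : Fin k → I → ℤ} (h : ∀ i j, i ≠ j → WeaklyErgodic μ T Φ (a i - a j)) :
    PairInd μ T (dens Φ) fun n i => a i n := by
  intro i j hij
  refine dens_of_mean hT hW hΦ fun A B hA hB => ?_
  simp only [real_pair hT _ _ hA hB]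
  exact h j i hij.symm A B hA hB

theorem pairInd_dbl {a : Fin k → I → ℤ} (h1 : PairInd μ T (dens Φ) fun n i => a i n)
    (h2 : ∀ i j, ∀ A B : Set Ω, MeasurableSet A → MeasurableSet B →
      Tendsto (fun p : I × I => μ.real (iter T (a i p.1) ⁻¹' A ∩ iter T (a j p.2) ⁻¹' B))
        (dens fun N => Φ N ×ˢ Φ N) (𝓝 (μ.real A * μ.real B))) :
    PairInd μ T (dens fun N => Φ N ×ˢ Φ N) (dbl a) := by
  rintro (i | i) (j | j) hij A B hA hB
  · exact (h1 i j (fun h => hij (by rw [h])) A B hA hB).comp (tendsto_fst_dens Φ Φ)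
  · exact h2 i j A B hA hB
  · have h3 := h2 j i B A hB hA
    rw [mul_comm] at h3
    exact h3.congr fun p => by rw [Set.inter_comm]; rfl
  · exact (h1 i j (fun h => hij (by rw [h])) A B hA hB).comp (tendsto_snd_dens Φ Φ)

/-- **Joint ergodicity for weakly mixing transformations** -/
theorem je_of_weak (hT : MeasurePreserving T μ μ) (hW : WM μ T) (hΦ : ∀ N, (Φ N).Nonempty)
    {a : Fin k → I → ℤ} (h1 : ∀ i, JEi μ T Φ (a i))
    (h2 : ∀ i j, i ≠ j → WeaklyErgodic μ T Φ (a i - a j)) : JE μ T Φ a :=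
  je_of_pairInd hT hΦ (pairInd_dbl (pairInd_of_weak hT hW hΦ h2) fun i j =>
    dens_of_mean hT hW (fun N => (hΦ N).product (hΦ N)) (mean_cross hT hΦ (h1 i) (a j)))

theorem tfae_of_wm (hT : MeasurePreserving T μ μ) (hW : WM μ T) (hΦ : ∀ N, (Φ N).Nonempty)
    (a : Fin k → I → ℤ) :
    List.TFAE [JointlyErgodic μ T Φ a,
      (∀ i, JointlyErgodic μ T Φ ![a i]) ∧ ∀ i j, i ≠ j → JointlyErgodic μ T Φ ![a i, a j],
      (∀ i, JointlyErgodic μ T Φ ![a i]) ∧ ∀ i j, i ≠ j → WeaklyErgodic μ T Φ (a i - a j)] := by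
  simp only [je_iff hT]
  tfae_have 1 → 2 := fun h => ⟨h.one, fun _ _ => h.two⟩
  tfae_have 2 → 3 := fun h => ⟨h.1, fun i j hij => weak_of_pair hT (h.2 i j hij)⟩
  tfae_have 3 → 1 := fun h => je_of_weak hT hW hΦ (fun i => (h.1 i).jei) h.2
  tfae_finish

/-- **Weak mixing of all orders along arbitrary sequences** -/
theorem density_of_weak (hT : MeasurePreserving T μ μ) (hW : WM μ T) (hΦ : ∀ N, (Φ N).Nonempty)
    {a : Fin k → I → ℤ} (h : ∀ i j, i ≠ j → WeaklyErgodic μ T Φ (a i - a j))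
    (A : Fin k → Set Ω) (hA : ∀ i, MeasurableSet (A i)) :
    Tendsto (fun N => 𝔼 n ∈ Φ N, |μ.real (⋂ i, iter T (a i n) ⁻¹' A i) - ∏ i, μ.real (A i)|)
      atTop (𝓝 0) := by
  have h1 := local_set hT (pairInd_of_weak hT hW hΦ h) A hA
  rw [tendsto_iff_norm_sub_tendsto_zero] at h1
  refine avg_of_dens (C := 1 + |∏ i, μ.real (A i)|) (fun _ => abs_nonneg _) (fun n => ?_) h1
  refine (abs_sub _ _).trans (add_le_add ?_ le_rfl)
  rw [abs_of_nonneg measureReal_nonneg]
  exact measureReal_le_one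

end Vale.Agent.N102
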