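import Vale.Agent.N102.Joint

/-! Mixing transformations: mixing of all orders, and the Blum-Hanson theorem of all orders. -/

open MeasureTheory Filter Topology Finset
open scoped BigOperators ENNReal ComplexConjugate

set_option linter.unusedSectionVars false

namespace Vale.Agent.N102

variable {Ω : Type*} [MeasurableSpace Ω] {μ : Measure Ω} [IsProbabilityMeasure μ] {T : Ω ≃ᵐ Ω}
  {I : Type*} {Φ : ℕ → Finset I} {k : ℕ} {J : Type*}

theorem comap_abs_eq : comap (fun n : ℤ => |n|) atTop = cofinite := by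
  rw [Int.cofinite_eq]
  exact comap_abs_atTop

/-- two families of times whose difference leaves every finite set are independent -/
theorem Mixing.pair (hT : MeasurePreserving T μ μ) (h : Mixing μ T) {l : Filter J} {s s' : J → ℤ}
    (hs : ∀ c : ℤ, ∀ᶠ n in l, ¬ s n - s' n = c) (A B : Set Ω) (hA : MeasurableSet A)
    (hB : MeasurableSet B) :
    Tendsto (fun n => μ.real (iter T (s n) ⁻¹' A ∩ iter T (s' n) ⁻¹' B)) l
      (𝓝 (μ.real A * μ.real B)) := by
  have h1 := h B A hB hA
  rw [comap_abs_eq, mul_comm] at h1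
  have h2 : Tendsto (fun n => s n - s' n) l cofinite :=
    le_cofinite_iff_eventually_ne.2 fun c => hs c
  refine (h1.comp h2).congr fun n => ?_
  rw [Set.inter_comm (iter T (s n) ⁻¹' A), real_pair hT _ _ hB hA]
  rfl

/-- **Rokhlin's problem** -/
theorem Mixing.order (hT : MeasurePreserving T μ μ) (h : Mixing μ T) (k : ℕ) :
    MixingOfOrder μ T k := by
  intro A hA
  obtain ⟨l, hl⟩ : ∃ l : Filter (Fin k → ℤ), l = ⨅ (i : Fin k) (j : Fin k) (_ : (j : ℕ) = i + 1),
    comap (fun t => t j - t i) atTop := ⟨_, rfl⟩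
  rw [← hl]
  have h1 : ∀ i j : Fin k, (j : ℕ) = i + 1 → Tendsto (fun t : Fin k → ℤ => t j - t i) l atTop := by
    intro i j hij
    rw [hl, tendsto_iff_comap]
    exact iInf_le_of_le i (iInf_le_of_le j (iInf_le _ hij))
  have h2 : ∀ (d : ℕ) (i j : Fin k), (j : ℕ) = i + d + 1 →
      Tendsto (fun t : Fin k → ℤ => t j - t i) l atTop := by
    intro d
    induction d with
    | zero => exact h1
    | succ d ih =>
      intro i j hij
      have h3 := (h1 ⟨i + d + 1, by omega⟩ j (by simp; omega)).atTop_add_atTop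
        (ih i ⟨i + d + 1, by omega⟩ rfl)
      exact h3.congr fun t => by ring
  refine local_set hT (t := fun t : Fin k → ℤ => t) (fun i j hij => h.pair hT fun c => ?_) A hA
  rcases lt_or_gt_of_ne hij with h3 | h3
  · have h4 : (i : ℕ) < j := h3
    filter_upwards [(h2 (j - i - 1) i j (by omega)).eventually_gt_atTop (-c)] with t ht
    omega
  · have h4 : (j : ℕ) < i := h3
    filter_upwards [(h2 (i - j - 1) j i (by omega)).eventually_gt_atTop c] with t ht
    omega

/-- a sequence without heavy values avoids, in density, any other sequence with a free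
parameter -/
theorem cross_ne (hΦ : ∀ N, (Φ N).Nonempty) {b : I → ℤ}
    (hb : ∀ ε : ℝ, 0 < ε → ∀ᶠ N in atTop, ∀ v : ℤ, (#{n ∈ Φ N | b n = v} : ℝ) ≤ ε * #(Φ N))
    (b' : I → ℤ) (c : ℤ) :
    ∀ᶠ p in dens fun N => Φ N ×ˢ Φ N, ¬ b p.1 - b' p.2 = c := by
  change {p : I × I | ¬ b p.1 - b' p.2 = c} ∈ dens _
  rw [mem_dens, Metric.tendsto_nhds]
  intro ε hε
  filter_upwards [hb (ε / 2) (half_pos hε)] with N hN
  rw [dist_zero_right, Real.norm_of_nonneg (out_nonneg _ _)]
  refine lt_of_le_of_lt ?_ (half_lt_self hε)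
  unfold out
  rw [expect_product, expect_comm]
  refine expect_le (hΦ N) fun m _ => ?_
  have h1 : 𝔼 n ∈ Φ N, off {p : I × I | ¬ b p.1 - b' p.2 = c} (n, m) =
      out (Φ N) {n | ¬ b n = b' m + c} := by
    refine expect_congr rfl fun n _ => ?_
    by_cases h : b n = b' m + c
    · rw [off_notMem, off_notMem]
      · simpa using h
      · simp only [Set.mem_ofPred_eq, not_not]; omega
    · rw [off_mem, off_mem]
      · simpa using h
      · simp only [Set.mem_ofPred_eq]; omega
  have hpos : (0 : ℝ) < #(Φ N) := by exact_mod_cast (hΦ N).card_pos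
  rw [h1, out_not, div_le_iff₀ hpos]
  exact hN _

theorem Mixing.wm (hT : MeasurePreserving T μ μ) (h : Mixing μ T) : WM μ T := by
  intro A B hA hB ε hε
  have hΦ : ∀ N : ℕ, (range (N + 1)).Nonempty := fun N => nonempty_range_add_one
  have h1 : ∀ c : ℤ, ∀ᶠ p : ℕ × ℕ in dens fun N => range (N + 1) ×ˢ range (N + 1),
      ¬ (p.1 : ℤ) - (p.2 : ℤ) = c := by
    refine cross_ne (b := fun n : ℕ => (n : ℤ)) hΦ (fun δ hδ => ?_) (fun n : ℕ => (n : ℤ))
    obtain ⟨K, hK⟩ := exists_nat_gt (1 / δ)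
    filter_upwards [eventually_ge_atTop K] with N hN v
    have h2 : #((range (N + 1)).filter fun n : ℕ => (n : ℤ) = v) ≤ 1 := by
      refine card_le_one.2 fun a ha b hb => ?_
      have := (mem_filter.1 ha).2.trans (mem_filter.1 hb).2.symm
      exact_mod_cast this
    have h3 : (K : ℝ) ≤ N := by exact_mod_cast hN
    rw [div_lt_iff₀ hδ] at hK
    have h4 : (#((range (N + 1)).filter fun n : ℕ => (n : ℤ) = v) : ℝ) ≤ 1 := by
      exact_mod_cast h2
    rw [card_range]
    push_cast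
    nlinarith
  have h2 := (h.pair hT h1 A A hA hA).mul (h.pair hT h1 B B hB hB)
  have h3 := avg_tendsto (fun N => (hΦ N).product (hΦ N)) (C := 1) (fun p => by
    rw [Real.norm_of_nonneg (mul_nonneg measureReal_nonneg measureReal_nonneg)]
    exact mul_le_one₀ measureReal_le_one measureReal_nonneg measureReal_le_one) h2
  obtain ⟨N, hN⟩ := ((tendsto_order.1 h3).2 ((μ.real A * μ.real B) ^ 2 + ε) (by nlinarith)).exists
  exact ⟨N + 1, N.succ_pos, hN.le⟩

/-- on a non trivial space, independence of two families of times forces their difference to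
leave every finite set -/
theorem ne_of_pair (hT : MeasurePreserving T μ μ)
    (hnt : ∃ A, MeasurableSet A ∧ 0 < μ.real A ∧ μ.real A < 1) {l : Filter J} {s s' : J → ℤ}
    (h : ∀ A B : Set Ω, MeasurableSet A → MeasurableSet B →
      Tendsto (fun n => μ.real (iter T (s n) ⁻¹' A ∩ iter T (s' n) ⁻¹' B)) l
        (𝓝 (μ.real A * μ.real B))) (c : ℤ) : ∀ᶠ n in l, ¬ s n - s' n = c := by
  obtain ⟨A, hA, h0, h1⟩ := hnt
  have h2 := h A (iter T c ⁻¹' A) hA (measurable_iter T _ hA)
  rw [real_iter hT _ hA] at h2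
  filter_upwards [(tendsto_order.1 h2).2 (μ.real A) (by nlinarith)] with n hn hc
  have h3 : iter T (s' n) ⁻¹' (iter T c ⁻¹' A) = iter T (s n) ⁻¹' A := by
    ext x
    simp only [Set.mem_preimage, ← iter_add]
    rw [show c + s' n = s n by omega]
  rw [h3, Set.inter_self, real_iter hT _ hA] at hn
  exact lt_irrefl _ hn

/-- **The Blum-Hanson theorem of all orders** -/
theorem Mixing.je_iff (hT : MeasurePreserving T μ μ) (h : Mixing μ T)
    (hnt : ∃ A, MeasurableSet A ∧ 0 < μ.real A ∧ μ.real A < 1) (hΦ : ∀ N, (Φ N).Nonempty)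
    (a : Fin k → I → ℤ) : JointlyErgodic μ T Φ a ↔
      (∀ i, ∀ ε : ℝ, 0 < ε → ∀ᶠ N in atTop, ∀ v : ℤ,
        (#{n ∈ Φ N | a i n = v} : ℝ) ≤ ε * #(Φ N)) ∧
      ∀ i j, i ≠ j → ∀ c : ℤ, ∀ ε : ℝ, 0 < ε → ∀ᶠ N in atTop,
        (#{n ∈ Φ N | a i n - a j n = c} : ℝ) ≤ ε * #(Φ N) := by
  rw [N102.je_iff hT]
  have hΦ2 : ∀ N, (Φ N ×ˢ Φ N).Nonempty := fun N => (hΦ N).product (hΦ N)
  constructor
  · intro hJ
    have hW := h.wm hT
    refine ⟨fun i ε hε => ?_, fun i j hij c => ?_⟩
    · have h1 := ne_of_pair hT hnt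
        (dens_of_mean hT hW hΦ2 (mean_cross hT hΦ (hJ.one i).jei (a i))) 0
      filter_upwards [(dens_not_iff hΦ2 _).1 h1 (ε ^ 2) (by positivity)] with N hN v
      have h2 : {n ∈ Φ N | a i n = v} ×ˢ {n ∈ Φ N | a i n = v} ⊆
          {p ∈ Φ N ×ˢ Φ N | a i p.1 - a i p.2 = 0} := by
        intro p hp
        simp only [mem_product, mem_filter] at hp ⊢
        exact ⟨⟨hp.1.1, hp.2.1⟩, by rw [hp.1.2, hp.2.2, sub_self]⟩
      have h3 : (#({n ∈ Φ N | a i n = v} ×ˢ {n ∈ Φ N | a i n = v}) : ℝ) ≤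
          #{p ∈ Φ N ×ˢ Φ N | a i p.1 - a i p.2 = 0} := by exact_mod_cast card_le_card h2
      rw [card_product] at h3 hN
      push_cast at h3 hN
      refine (pow_le_pow_iff_left₀ (by positivity) (by positivity) two_ne_zero).1 ?_
      nlinarith
    · exact (dens_not_iff hΦ _).1 (ne_of_pair hT hnt
        (pairInd_of_weak hT hW hΦ (fun i j hij => weak_of_pair hT (hJ.two hij)) i j hij) c)
  · rintro ⟨h1, h2⟩
    exact je_of_pairInd hT hΦ (pairInd_dbl
      (fun i j hij => h.pair hT fun c => (dens_not_iff hΦ _).2 (h2 i j hij c))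
      fun i j => h.pair hT (cross_ne hΦ (h1 i) (a j)))

end Vale.Agent.N102
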