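import Vale.Agent.N102.Defs
import Vale.Agent.N102.Dens
import Mathlib.MeasureTheory.Integral.RieszMarkovKakutani.Real
import Mathlib.Analysis.CStarAlgebra.ContinuousFunctionalCalculus.Basic
import Mathlib.Analysis.CStarAlgebra.ContinuousLinearMap
import Mathlib.Analysis.InnerProductSpace.Adjoint
import Mathlib.MeasureTheory.Integral.DominatedConvergence
import Mathlib.MeasureTheory.Function.SpecialFunctions.Basic

/-! The spectral measure of a vector under a unitary group, and Weyl sums. -/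

open MeasureTheory Filter Topology Finset
open scoped BigOperators ComplexConjugate InnerProductSpace CompactlySupported

namespace Vale.Agent.N102

variable {H : Type*} [NormedAddCommGroup H] [InnerProductSpace ℂ H] [CompleteSpace H]

/-- the spectral measure of a vector under a normal operator -/
theorem exists_spectral (U : H →L[ℂ] H) (hU : IsStarNormal U) (v : H) :
    ∃ σ : Measure (spectrum ℂ U), IsFiniteMeasure σ ∧ ∀ φ : C(spectrum ℂ U, ℂ),
      ∫ z, ‖φ z‖ ^ 2 ∂σ = ‖cfcHom hU φ v‖ ^ 2 := by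
  let lift : C_c(spectrum ℂ U, ℝ) → C(spectrum ℂ U, ℂ) :=
    fun ψ => ⟨fun z => (ψ z : ℂ), by fun_prop⟩
  have key : ∀ (ψ : C_c(spectrum ℂ U, ℝ)) (φ : C(spectrum ℂ U, ℂ)), (∀ z, ψ z = ‖φ z‖ ^ 2) →
      (⟪v, cfcHom hU (lift ψ) v⟫_ℂ).re = ‖cfcHom hU φ v‖ ^ 2 := by
    intro ψ φ h
    have h1 : lift ψ = star φ * φ := by
      ext z
      simp only [lift, ContinuousMap.coe_mk, h, ContinuousMap.mul_apply, ContinuousMap.star_apply,
        Complex.star_def]
      rw [Complex.conj_mul']
      push_cast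
      rfl
    rw [h1, map_mul, map_star, mul_apply_eq_comp, ContinuousLinearMap.star_eq_adjoint,
      ContinuousLinearMap.adjoint_inner_right]
    exact inner_self_eq_norm_sq (𝕜 := ℂ) _
  let L : C_c(spectrum ℂ U, ℝ) →ₗ[ℝ] ℝ :=
    { toFun := fun ψ => (⟪v, cfcHom hU (lift ψ) v⟫_ℂ).re
      map_add' := fun ψ ψ' => by
        have h1 : lift (ψ + ψ') = lift ψ + lift ψ' := by ext z; simp [lift]
        rw [h1, map_add, add_apply, inner_add_right, Complex.add_re]
      map_smul' := fun c ψ => by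
        have h1 : lift (c • ψ) = (c : ℂ) • lift ψ := by ext z; simp [lift]
        rw [h1, map_smul, smul_apply, inner_smul_right]
        simp }
  let Λ : C_c(spectrum ℂ U, ℝ) →ₚ[ℝ] ℝ := PositiveLinearMap.mk₀ L fun ψ hψ => by
    have h1 := key ψ ⟨fun z => ((√(ψ z) : ℝ) : ℂ), by fun_prop⟩ fun z => by
      have h2 : 0 ≤ ψ z := hψ z
      simp only [ContinuousMap.coe_mk, Complex.norm_real, Real.norm_eq_abs, sq_abs]
      exact (Real.sq_sqrt h2).symm
    change 0 ≤ (⟪v, cfcHom hU (lift ψ) v⟫_ℂ).re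
    rw [h1]
    positivity
  refine ⟨RealRMK.rieszMeasure Λ, inferInstance, fun φ => ?_⟩
  let ψ : C_c(spectrum ℂ U, ℝ) :=
    { toFun := fun z => ‖φ z‖ ^ 2
      continuous_toFun := by fun_prop
      hasCompactSupport' := HasCompactSupport.of_compactSpace _ }
  exact (RealRMK.integral_rieszMeasure Λ ψ).trans (key ψ φ fun _ => rfl)

omit [CompleteSpace H] in
theorem normSq_avg {J : Type*} (s : Finset J) (x : J → H) :
    ((‖(#s : ℂ)⁻¹ • ∑ n ∈ s, x n‖ ^ 2 : ℝ) : ℂ) = 𝔼 p ∈ s ×ˢ s, ⟪x p.1, x p.2⟫_ℂ := by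
  have h1 : ∀ y : H, ((‖y‖ ^ 2 : ℝ) : ℂ) = ⟪y, y⟫_ℂ := fun y => by
    rw [inner_self_eq_norm_sq_to_K]
    push_cast
    rfl
  rw [expect_eq_sum_div_card, sum_product, card_product, h1, inner_smul_left, inner_smul_right,
    sum_inner]
  simp only [inner_sum, map_inv₀, map_natCast]
  push_cast
  ring

section group

variable {K : ℤ → H →L[ℂ] H} (h0 : K 0 = 1) (hadd : ∀ m n, K (m + n) = K m * K n)
  (hiso : ∀ x y, ⟪K 1 x, K 1 y⟫_ℂ = ⟪x, y⟫_ℂ)

include h0 hadd hiso

theorem mem_unitary : K 1 ∈ unitary (H →L[ℂ] H) := by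
  have h1 : K 1 * K (-1) = 1 := by rw [← hadd, add_neg_cancel, h0]
  have h2 : K (-1) * K 1 = 1 := by rw [← hadd, neg_add_cancel, h0]
  have hstar : star (K 1) = K (-1) := by
    rw [ContinuousLinearMap.star_eq_adjoint, eq_comm, ContinuousLinearMap.eq_adjoint_iff]
    intro x y
    rw [← hiso, ← mul_apply_eq_comp, h1, one_apply_eq_self]
  exact ⟨by rw [hstar, h2], by rw [hstar, h1]⟩

theorem norm_spec (z : spectrum ℂ (K 1)) : ‖(z : ℂ)‖ = 1 :=
  spectrum.norm_eq_one_of_unitary (𝕜 := ℂ) (E := H →L[ℂ] H) (mem_unitary h0 hadd hiso) z.2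

/-- the basic identity -/
theorem spec_identity (hU : IsStarNormal (K 1)) {v : H} {σ : Measure (spectrum ℂ (K 1))}
    (hint : ∀ φ : C(spectrum ℂ (K 1), ℂ), ∫ z, ‖φ z‖ ^ 2 ∂σ = ‖cfcHom hU φ v‖ ^ 2)
    {J : Type*} (s : Finset J) (c : J → ℂ) (t : J → ℤ) :
    ((∫ z : spectrum ℂ (K 1), ‖𝔼 n ∈ s, c n * (z : ℂ) ^ t n‖ ^ 2 ∂σ : ℝ) : ℂ) =
      𝔼 p ∈ s ×ˢ s, ⟪c p.1 • K (t p.1) v, c p.2 • K (t p.2) v⟫_ℂ := by
  have h1 : K 1 * K (-1) = 1 := by rw [← hadd, add_neg_cancel, h0]
  have hz0 : ∀ z : spectrum ℂ (K 1), (z : ℂ) ≠ 0 := fun z h => by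
    have := norm_spec h0 hadd hiso z
    rw [h, norm_zero] at this
    exact zero_ne_one this
  let e : ℤ → C(spectrum ℂ (K 1), ℂ) := fun n =>
    ⟨fun z => (z : ℂ) ^ n, continuous_subtype_val.zpow₀ n fun z => Or.inl (hz0 z)⟩
  have he : ∀ n, cfcHom hU (e n) = K n := by
    have he1 : cfcHom hU (e 1) = K 1 := by
      refine Eq.trans ?_ (cfcHom_id (R := ℂ) hU)
      congr 1
      ext z
      simp [e]
    have headd : ∀ m n, e (m + n) = e m * e n := by
      intro m n
      ext z
      simp [e, zpow_add₀ (hz0 z)]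
    intro n
    induction n using Int.induction_on with
    | zero =>
      have : e 0 = 1 := by ext z; simp [e]
      rw [this, map_one, h0]
    | succ n ih => rw [headd, map_mul, ih, he1, hadd]
    | pred n ih =>
      have h3 : cfcHom hU (e (-(n : ℤ) - 1)) * cfcHom hU (e 1) = K (-(n : ℤ)) := by
        rw [← map_mul, ← headd, sub_add_cancel, ih]
      rw [he1] at h3
      calc cfcHom hU (e (-(n : ℤ) - 1)) = cfcHom hU (e (-(n : ℤ) - 1)) * (K 1 * K (-1)) := by
            rw [h1, mul_one]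
        _ = K (-(n : ℤ) - 1) := by rw [← mul_assoc, h3, ← hadd, sub_eq_add_neg]
  have h3 := hint ((#s : ℂ)⁻¹ • ∑ n ∈ s, c n • e (t n))
  rw [← normSq_avg s fun n => c n • K (t n) v]
  simp only [map_smul, map_sum, he, smul_apply, _root_.sum_apply] at h3
  rw [← h3]
  congr 2
  funext z
  rw [expect_eq_sum_div_card]
  simp [e, div_eq_inv_mul]

/-- **Weyl sums and continuous spectrum.** -/
theorem weyl_abstract (v : H)
    (hv : Tendsto (fun M : ℕ => 𝔼 p ∈ range (M + 1) ×ˢ range (M + 1), ‖⟪K p.1 v, K p.2 v⟫_ℂ‖) atTop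
      (𝓝 0)) {I : Type*} {Φ : ℕ → Finset I} {b : I → ℤ} (hb : WeylNull Φ b) :
    Tendsto (fun N => 𝔼 p ∈ Φ N ×ˢ Φ N, ⟪K (b p.1) v, K (b p.2) v⟫_ℂ) atTop (𝓝 0) := by
  have hun := mem_unitary h0 hadd hiso
  have hU : IsStarNormal (K 1) := ⟨by rw [Commute, SemiconjBy, hun.1, hun.2]⟩
  obtain ⟨σ, hσ, hint⟩ := exists_spectral (K 1) hU v
  have hz := norm_spec h0 hadd hiso
  have hz0 : ∀ z : spectrum ℂ (K 1), (z : ℂ) ≠ 0 := fun z h => by
    have := hz z
    rw [h, norm_zero] at this
    exact zero_ne_one this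
  have hpow : ∀ n : ℤ, Continuous fun z : spectrum ℂ (K 1) => (z : ℂ) ^ n :=
    fun n => continuous_subtype_val.zpow₀ n fun z => Or.inl (hz0 z)
  -- no atoms
  have hat : NullSingletonClass σ := by
    refine ⟨fun w => ?_⟩
    rw [← measureReal_eq_zero_iff]
    refine le_antisymm (ge_of_tendsto' hv fun M => ?_) measureReal_nonneg
    have h1 := spec_identity h0 hadd hiso hU hint (range (M + 1)) (fun m => conj (w : ℂ) ^ m)
      fun m => (m : ℤ)
    have hc : Continuous fun z : spectrum ℂ (K 1) =>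
        ‖𝔼 m ∈ range (M + 1), conj (w : ℂ) ^ m * (z : ℂ) ^ (m : ℤ)‖ ^ 2 := by
      simp only [expect_eq_sum_div_card]
      have h5 : Continuous fun z : spectrum ℂ (K 1) =>
          ∑ m ∈ range (M + 1), conj (w : ℂ) ^ m * (z : ℂ) ^ (m : ℤ) :=
        continuous_finsetSum _ fun m _ => continuous_const.mul (hpow m)
      exact ((h5.div_const _).norm).pow 2
    have h2 := mul_meas_ge_le_integral_of_nonneg (μ := σ)
      (Eventually.of_forall fun z => sq_nonneg _)
      (hc.integrable_of_hasCompactSupport (HasCompactSupport.of_compactSpace _)) 1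
    rw [one_mul] at h2
    refine (measureReal_mono ?_).trans (h2.trans ?_)
    · rintro z rfl
      have h3 : ∀ m : ℕ, conj (z : ℂ) ^ m * (z : ℂ) ^ (m : ℤ) = 1 := by
        intro m
        rw [zpow_natCast, ← mul_pow, Complex.conj_mul', hz]
        simp
      simp only [Set.mem_ofPred_eq, h3, expect_const nonempty_range_add_one, norm_one, one_pow,
        le_refl]
    · refine (le_abs_self _).trans ?_
      rw [← Real.norm_eq_abs, ← Complex.norm_real, h1]
      refine (RCLike.norm_expect_le (K := ℂ)).trans (expect_le_expect fun p _ => le_of_eq ?_)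
      rw [inner_smul_left, inner_smul_right, norm_mul, norm_mul, RCLike.norm_conj, norm_pow,
        norm_pow, RCLike.norm_conj, hz, one_pow, one_pow, one_mul, one_mul]
  -- dominated convergence
  have hexp : ∀ (z : spectrum ℂ (K 1)) (n : ℤ), (z : ℂ) ^ n =
      Complex.exp (2 * Real.pi * Complex.I * (Complex.arg z / (2 * Real.pi) : ℝ) * n) := by
    intro z n
    have h1 := Complex.norm_mul_exp_arg_mul_I (z : ℂ)
    rw [hz, Complex.ofReal_one, one_mul] at h1
    have hpi : (Real.pi : ℂ) ≠ 0 := by exact_mod_cast Real.pi_ne_zero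
    rw [mul_comm _ (n : ℂ), Complex.exp_int_mul]
    congr 1
    refine h1.symm.trans ?_
    congr 1
    push_cast
    field_simp
  have hinj : Function.Injective
      fun z : spectrum ℂ (K 1) => Complex.arg z / (2 * Real.pi) := by
    intro z w h
    have h1 := hexp z 1
    have h2 := hexp w 1
    simp only at h
    rw [h, ← h2, zpow_one, zpow_one] at h1
    exact Subtype.ext h1
  have hae := (Set.Countable.preimage hb hinj).measure_zero σ
  have h1 : Tendsto (fun N => ∫ z : spectrum ℂ (K 1), ‖𝔼 n ∈ Φ N, 1 * (z : ℂ) ^ b n‖ ^ 2 ∂σ) atTop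
      (𝓝 (∫ _z, 0 ∂σ)) := by
    refine tendsto_integral_of_dominated_convergence (fun _ => 1) (fun N => ?_)
      (integrable_const _) (fun N => Eventually.of_forall fun z => ?_) ?_
    · simp only [expect_eq_sum_div_card]
      have h5 : Continuous fun z : spectrum ℂ (K 1) => ∑ n ∈ Φ N, 1 * (z : ℂ) ^ b n :=
        continuous_finsetSum _ fun m _ => continuous_const.mul (hpow _)
      exact (((h5.div_const _).norm).pow 2).aestronglyMeasurable
    · rw [norm_pow, norm_norm]
      refine pow_le_one₀ (norm_nonneg _) ((RCLike.norm_expect_le (K := ℂ)).trans ?_)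
      simp only [one_mul, norm_zpow, hz, one_zpow]
      exact expect_const_le _ zero_le_one
    · filter_upwards [compl_mem_ae_iff.2 hae] with z hz'
      simp only [Set.mem_compl_iff, Set.mem_preimage, Set.mem_ofPred_eq, not_not] at hz'
      simp only [one_mul, hexp]
      simpa using hz'.norm.pow 2
  have h2 := (Complex.continuous_ofReal.tendsto _).comp h1
  simp only [integral_zero, Complex.ofReal_zero] at h2
  refine h2.congr fun N => ?_
  simp only [Function.comp_apply]
  rw [spec_identity h0 hadd hiso hU hint (Φ N) (fun _ => 1) b]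
  simp only [one_smul]

end group

end Vale.Agent.N102
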