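import Vale.Agent.N102.Fun
import Mathlib.Dynamics.Ergodic.Function

/-! For a weakly mixing transformation, independence on average of two sequences of times is
independence in density. -/

open MeasureTheory Filter Topology Finset
open scoped BigOperators ENNReal ComplexConjugate RealInnerProductSpace

set_option linter.unusedSectionVars false

namespace Vale.Agent.N102

open Vale.Agent.P102.SF (BM)

variable {Ω : Type*} [MeasurableSpace Ω] {μ : Measure Ω} [IsProbabilityMeasure μ] {T : Ω ≃ᵐ Ω}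
  {J : Type*}

theorem integral_expect {𝕜 : Type*} [RCLike 𝕜] {Y : Type*} [MeasurableSpace Y] {ν : Measure Y}
    (s : Finset J) (f : J → Y → 𝕜) (hf : ∀ n, Integrable (f n) ν) :
    ∫ x, (𝔼 n ∈ s, f n x) ∂ν = 𝔼 n ∈ s, ∫ x, f n x ∂ν := by
  simp only [expect_eq_sum_div_card]
  rw [integral_div, integral_finsetSum _ fun n _ => hf n]

theorem tendsto_expect {𝕜 : Type*} [RCLike 𝕜] {K : Type*} {l : Filter K} (s : Finset J)
    {f : J → K → 𝕜} {L : J → 𝕜} (h : ∀ n, Tendsto (f n) l (𝓝 (L n))) :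
    Tendsto (fun y => 𝔼 n ∈ s, f n y) l (𝓝 (𝔼 n ∈ s, L n)) := by
  simp only [expect_eq_sum_div_card]
  exact (tendsto_finsetSum _ fun n _ => h n).div_const _

theorem bm_expect (s : Finset J) {P : J → Ω → ℂ} (hP : ∀ n, BM (P n)) :
    BM fun x => 𝔼 n ∈ s, P n x := by
  simp only [expect_eq_sum_div_card, div_eq_mul_inv]
  exact (BM.sum s fun n _ => hP n).mul (BM.const _)

/-- the square of the `L²` norm of an average -/
theorem normSq_expect (s : Finset J) {P : J → Ω → ℂ} (hP : ∀ n, BM (P n)) :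
    ((∫ x, ‖𝔼 n ∈ s, P n x‖ ^ 2 ∂μ : ℝ) : ℂ) =
      𝔼 p ∈ s ×ˢ s, ∫ x, P p.1 x * conj (P p.2 x) ∂μ := by
  rw [← integral_complex_ofReal,
    ← integral_expect _ (fun (p : J × J) x => P p.1 x * conj (P p.2 x))
      fun p => ((hP _).mul (hP _).conj).integrable]
  congr 1
  funext x
  have h1 : conj (𝔼 n ∈ s, P n x) = 𝔼 n ∈ s, conj (P n x) := by
    simp only [expect_eq_sum_div_card, map_div₀, map_sum, map_natCast]
  rw [← Complex.normSq_eq_norm_sq, ← Complex.mul_conj, h1, expect_mul_expect, expect_product]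

theorem ind_mul_conj (A B : Set Ω) (x : Ω) : ind A x * conj (ind B x) = ind (A ∩ B) x := by
  by_cases hA : x ∈ A <;> by_cases hB : x ∈ B <;> simp [ind, hA, hB]

/-- Jensen's inequality for an average of indicator functions -/
theorem sq_le_avg (s : Finset J) (E : J → Set Ω) (hE : ∀ m, MeasurableSet (E m)) :
    (𝔼 m ∈ s, μ.real (E m)) ^ 2 ≤ 𝔼 p ∈ s ×ˢ s, μ.real (E p.1 ∩ E p.2) := by
  have h1 := normSq_expect (μ := μ) s fun m => bm_ind (hE m)
  simp only [ind_mul_conj, integral_ind ((hE _).inter (hE _))] at h1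
  rw [← Complex.ofReal_expect, Complex.ofReal_inj] at h1
  obtain ⟨hm, C, hC⟩ := bm_expect s fun m => bm_ind (hE m)
  have h2 := P102.Ext.sq_integral_norm_le (μ := μ) _ hm hC
  have h3 := norm_integral_le_integral_norm (μ := μ) fun x => 𝔼 m ∈ s, ind (E m) x
  rw [integral_expect _ _ fun m => (bm_ind (hE m)).integrable] at h3
  simp only [integral_ind (hE _)] at h3
  rw [← Complex.ofReal_expect, Complex.norm_real,
    Real.norm_of_nonneg (expect_nonneg fun _ _ => measureReal_nonneg)] at h3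
  rw [← h1]
  exact (pow_le_pow_left₀ (expect_nonneg fun _ _ => measureReal_nonneg) h3 2).trans h2

/-- the form of weak mixing which is used -/
def WM (μ : Measure Ω) (T : Ω ≃ᵐ Ω) : Prop :=
  ∀ A B : Set Ω, MeasurableSet A → MeasurableSet B → ∀ ε : ℝ, 0 < ε → ∃ M : ℕ, 0 < M ∧
    𝔼 p ∈ range M ×ˢ range M, μ.real (iter T p.1 ⁻¹' A ∩ iter T p.2 ⁻¹' A) *
      μ.real (iter T p.1 ⁻¹' B ∩ iter T p.2 ⁻¹' B) ≤ (μ.real A * μ.real B) ^ 2 + ε

/-- **van der Corput step**: independence on average implies independence in density -/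
theorem dens_of_mean (hT : MeasurePreserving T μ μ) (hW : WM μ T) {Ψ : ℕ → Finset J}
    (hΨ : ∀ N, (Ψ N).Nonempty) {s s' : J → ℤ}
    (h : ∀ A B : Set Ω, MeasurableSet A → MeasurableSet B →
      Tendsto (fun N => 𝔼 n ∈ Ψ N, μ.real (iter T (s n) ⁻¹' A ∩ iter T (s' n) ⁻¹' B)) atTop
        (𝓝 (μ.real A * μ.real B)))
    (A B : Set Ω) (hA : MeasurableSet A) (hB : MeasurableSet B) :
    Tendsto (fun n => μ.real (iter T (s n) ⁻¹' A ∩ iter T (s' n) ⁻¹' B)) (dens Ψ)
      (𝓝 (μ.real A * μ.real B)) := by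
  obtain ⟨c, hc⟩ : ∃ c, c = μ.real A * μ.real B := ⟨_, rfl⟩
  obtain ⟨ρ, hρ⟩ : ∃ ρ : J → ℝ, ∀ n, ρ n = μ.real (iter T (s n) ⁻¹' A ∩ iter T (s' n) ⁻¹' B) :=
    ⟨_, fun _ => rfl⟩
  have h0 := h A B hA hB
  simp only [← hρ, ← hc] at h0 ⊢
  have key : Tendsto (fun N => 𝔼 n ∈ Ψ N, (ρ n - c) ^ 2) atTop (𝓝 0) := by
    rw [Metric.tendsto_nhds]
    intro ε hε
    obtain ⟨M, hM, hQ⟩ := hW A B hA hB (ε / 2) (half_pos hε)
    rw [← hc] at hQ
    have hm : ∀ (C : Set Ω), MeasurableSet C → ∀ p : ℕ × ℕ,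
        MeasurableSet (iter T p.1 ⁻¹' C ∩ iter T p.2 ⁻¹' C) :=
      fun C hC p => (measurable_iter T _ hC).inter (measurable_iter T _ hC)
    have h1 := tendsto_expect (range M ×ˢ range M) fun p => h _ _ (hm A hA p) (hm B hB p)
    have h2 := (h1.sub (h0.const_mul (2 * c))).add_const (c ^ 2)
    have h3 := (tendsto_order.1 h2).2 ε (by nlinarith)
    filter_upwards [h3] with N hN
    rw [dist_zero_right, Real.norm_of_nonneg (expect_nonneg fun _ _ => sq_nonneg _)]
    refine lt_of_le_of_lt ?_ hN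
    rw [expect_comm, mul_expect, ← expect_sub_distrib, ← expect_const (hΨ N) (c ^ 2),
      ← expect_add_distrib]
    refine expect_le_expect fun n _ => ?_
    have hE : MeasurableSet (iter T (s n) ⁻¹' A ∩ iter T (s' n) ⁻¹' B) :=
      (measurable_iter T _ hA).inter (measurable_iter T _ hB)
    have h4 := sq_le_avg (μ := μ) (range M)
      (fun m : ℕ => iter T m ⁻¹' (iter T (s n) ⁻¹' A ∩ iter T (s' n) ⁻¹' B))
      fun m => measurable_iter T _ hE
    simp only [real_iter hT _ hE] at h4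
    rw [expect_const (nonempty_range_iff.2 hM.ne'), ← hρ] at h4
    have h5 : ∀ p : ℕ × ℕ, iter T p.1 ⁻¹' (iter T (s n) ⁻¹' A ∩ iter T (s' n) ⁻¹' B) ∩
        iter T p.2 ⁻¹' (iter T (s n) ⁻¹' A ∩ iter T (s' n) ⁻¹' B) =
        iter T (s n) ⁻¹' (iter T p.1 ⁻¹' A ∩ iter T p.2 ⁻¹' A) ∩
          iter T (s' n) ⁻¹' (iter T p.1 ⁻¹' B ∩ iter T p.2 ⁻¹' B) := by
      intro p
      ext x
      simp only [Set.mem_inter_iff, Set.mem_preimage, ← iter_add, add_comm (s n), add_comm (s' n)]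
      tauto
    simp only [h5] at h4
    nlinarith
  have h6 := (Real.continuous_sqrt.tendsto 0).comp (dens_of_avg (fun n => sq_nonneg _) key)
  rw [tendsto_iff_norm_sub_tendsto_zero]
  rw [Real.sqrt_zero] at h6
  refine h6.congr fun n => ?_
  simp only [Function.comp_apply, Real.sqrt_sq_eq_abs, Real.norm_eq_abs]

/-- the mean ergodic theorem for an indicator function -/
theorem ergodic_avg {Y : Type*} [MeasurableSpace Y] {ν : Measure Y} [IsProbabilityMeasure ν]
    {S : Y → Y} (hS : Ergodic S ν) {E : Set Y} (hE : MeasurableSet E) :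
    Tendsto (fun M => 𝔼 p ∈ range M ×ˢ range M, ν.real (S^[p.1] ⁻¹' E ∩ S^[p.2] ⁻¹' E)) atTop
      (𝓝 (ν.real E ^ 2)) := by
  let U : Lp ℝ 2 ν →L[ℝ] Lp ℝ 2 ν :=
    (Lp.compMeasurePreservingₗᵢ ℝ S hS.toMeasurePreserving).toContinuousLinearMap
  have hU : ‖U‖ ≤ 1 := LinearIsometry.norm_toContinuousLinearMap_le _
  have hm : ∀ m : ℕ, MeasurableSet (S^[m] ⁻¹' E) :=
    fun m => hS.toMeasurePreserving.measurable.iterate m hE
  let v : ℕ → Lp ℝ 2 ν := fun m => indicatorConstLp 2 (hm m) (measure_ne_top _ _) (1 : ℝ)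
  have hv : ∀ m, U^[m] (v 0) = v m := by
    intro m
    induction m with
    | zero => rfl
    | succ m ih => rw [Function.iterate_succ_apply', ih]; rfl
  let one : Lp ℝ 2 ν := indicatorConstLp 2 MeasurableSet.univ (measure_ne_top _ _) (1 : ℝ)
  have h1 := U.tendsto_birkhoffAverage_orthogonalProjection hU (v 0)
  obtain ⟨w, hw, h1⟩ : ∃ w : Lp ℝ 2 ν, U w = w ∧
      Tendsto (birkhoffAverage ℝ U _root_.id · (v 0)) atTop (𝓝 w) :=
    ⟨_, LinearMap.mem_eqLocus.1 (Subtype.property _), h1⟩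
  obtain ⟨c, hc⟩ : ∃ c : ℝ, w = c • one := by
    have h2 : (w : Y → ℝ) ∘ S =ᵐ[ν] w := by
      have h3 := Lp.coeFn_compMeasurePreserving w hS.toMeasurePreserving
      have h4 : Lp.compMeasurePreserving S hS.toMeasurePreserving w = w := hw
      rw [h4] at h3
      exact h3.symm
    obtain ⟨c, hc⟩ := hS.ae_eq_const_of_ae_eq_comp_ae (Lp.aestronglyMeasurable w) h2
    refine ⟨c, Lp.ext ?_⟩
    filter_upwards [hc, Lp.coeFn_smul c one, indicatorConstLp_coeFn (p := 2)
      (hs := MeasurableSet.univ) (hμs := measure_ne_top ν _) (c := (1 : ℝ))] with y h5 h6 h7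
    rw [h5, h6, Pi.smul_apply]
    simp only [one]
    rw [h7]
    simp
  have hav : ∀ M : ℕ, birkhoffAverage ℝ U _root_.id M (v 0) = (M : ℝ)⁻¹ • ∑ m ∈ range M, v m := by
    intro M
    simp only [birkhoffAverage, birkhoffSum, id, hv]
  have h11 : ⟪one, one⟫ = 1 := by
    simp only [one]
    rw [L2.real_inner_indicatorConstLp_one_indicatorConstLp_one]
    simp
  have hcE : c = ν.real E := by
    have h2 : Tendsto (fun M => ⟪one, birkhoffAverage ℝ U _root_.id M (v 0)⟫) atTop (𝓝 ⟪one, w⟫) :=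
      tendsto_const_nhds.inner h1
    rw [hc, real_inner_smul_right, h11, mul_one] at h2
    refine tendsto_nhds_unique h2 (tendsto_const_nhds.congr' ?_)
    filter_upwards [eventually_gt_atTop 0] with M hM
    rw [hav, real_inner_smul_right, inner_sum]
    have h3 : ∀ m, ⟪one, v m⟫ = ν.real E := by
      intro m
      simp only [one, v]
      rw [L2.real_inner_indicatorConstLp_one_indicatorConstLp_one, Set.univ_inter, measureReal_def,
        measureReal_def, (hS.toMeasurePreserving.iterate m).measure_preimage hE.nullMeasurableSet]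
    have h4 : (M : ℝ) ≠ 0 := by exact_mod_cast hM.ne'
    simp only [h3, sum_const, card_range, nsmul_eq_mul]
    field_simp
  have h2 : Tendsto (fun M => ⟪birkhoffAverage ℝ U _root_.id M (v 0),
      birkhoffAverage ℝ U _root_.id M (v 0)⟫) atTop (𝓝 ⟪w, w⟫) := h1.inner h1
  rw [hc, real_inner_smul_right, real_inner_smul_left, h11, mul_one, ← sq, hcE] at h2
  refine h2.congr fun M => ?_
  rw [hav, real_inner_smul_right, real_inner_smul_left, sum_inner, expect_eq_sum_div_card,
    sum_product, card_product, card_range]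
  simp only [inner_sum, v, L2.real_inner_indicatorConstLp_one_indicatorConstLp_one]
  push_cast
  ring

theorem wm_of_ergodic (hW : Ergodic (Prod.map T T) (μ.prod μ)) : WM μ T := by
  intro A B hA hB ε hε
  have h1 := ergodic_avg hW (hA.prod hB)
  obtain ⟨M, h2, hM⟩ := (((tendsto_order.1 h1).2 _ (lt_add_of_pos_right _ hε)).and
    (eventually_gt_atTop 0)).exists
  refine ⟨M, hM, ?_⟩
  rw [measureReal_prod_prod] at h2
  refine le_trans (le_of_eq ?_) h2.le
  refine expect_congr rfl fun p _ => ?_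
  rw [← measureReal_prod_prod, Prod.map_iterate, Prod.map_iterate, Set.preimage_prod_map_prod,
    Set.preimage_prod_map_prod, Set.prod_inter_prod, iter_nat, iter_nat]

end Vale.Agent.N102
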