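import Vale.Agent.N102.Mix
import Vale.Agent.N102.Spec

/-! The Weyl criterion for joint ergodicity in weakly mixing systems. -/

open MeasureTheory Filter Topology Finset
open scoped BigOperators ENNReal ComplexConjugate InnerProductSpace

set_option linter.unusedSectionVars false

namespace Vale.Agent.N102

open Vale.Agent.P102.SF (BM)

variable {Ω : Type*} [MeasurableSpace Ω] {μ : Measure Ω} [IsProbabilityMeasure μ] {T : Ω ≃ᵐ Ω}
  {I : Type*} {Φ : ℕ → Finset I} {k : ℕ}

theorem corr_ind {E E' : Set Ω} (hE : MeasurableSet E) (hE' : MeasurableSet E') {a : ℝ}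
    (h : μ.real E = a) (h' : μ.real E' = a) :
    ∫ x, (ind E x - a) * conj (ind E' x - a) ∂μ = (μ.real (E ∩ E') - a ^ 2 : ℝ) := by
  have h1 : ∀ x, (ind E x - a) * conj (ind E' x - a) =
      ind (E ∩ E') x - a * ind E x - (a * ind E' x - a ^ 2) := by
    intro x
    by_cases h1 : x ∈ E <;> by_cases h2 : x ∈ E' <;> simp [ind, h1, h2] <;> ring
  have b1 := bm_ind (hE.inter hE')
  have b2 := (BM.const (a : ℂ)).mul (bm_ind hE)
  have b3 := (BM.const (a : ℂ)).mul (bm_ind hE')
  have b4 : BM fun _ : Ω => (a : ℂ) ^ 2 := BM.const _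
  simp only [h1]
  rw [integral_sub (b1.sub b2).integrable (b3.sub b4).integrable,
    integral_sub b1.integrable b2.integrable, integral_sub b3.integrable b4.integrable,
    integral_const_mul, integral_const_mul, integral_ind hE, integral_ind hE',
    integral_ind (hE.inter hE'), h, h']
  simp only [integral_const, probReal_univ, one_smul]
  push_cast
  ring

theorem jei_of_corr (hT : MeasurePreserving T μ μ) (hΦ : ∀ N, (Φ N).Nonempty) {b : I → ℤ}
    (h : ∀ A, MeasurableSet A → Tendsto (fun N => 𝔼 p ∈ Φ N ×ˢ Φ N,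
      (μ.real (iter T (b p.1) ⁻¹' A ∩ iter T (b p.2) ⁻¹' A) - μ.real A ^ 2)) atTop (𝓝 0)) :
    JEi μ T Φ b := by
  intro A hA
  refine (h A hA).congr fun N => ?_
  have h1 := normSq_expect (μ := μ) (Φ N) (P := fun n x => ind (iter T (b n) ⁻¹' A) x - μ.real A)
    fun n => (bm_ind (measurable_iter T _ hA)).sub (BM.const _)
  simp only [corr_ind (measurable_iter T _ hA) (measurable_iter T _ hA) (real_iter hT _ hA)
    (real_iter hT _ hA)] at h1
  rw [← Complex.ofReal_expect, Complex.ofReal_inj] at h1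
  rw [← h1]
  simp only [expect_sub_distrib, expect_const (hΦ N)]

theorem jei_nat (hT : MeasurePreserving T μ μ) (hW : Ergodic (Prod.map T T) (μ.prod μ)) :
    JEi μ T (fun M => range (M + 1)) fun n : ℕ => (n : ℤ) := by
  refine jei_of_corr hT (fun _ => nonempty_range_add_one) fun A hA => ?_
  have h1 := ((ergodic_avg hW (hA.prod MeasurableSet.univ)).comp
    (tendsto_add_atTop_nat 1)).sub_const (μ.real A ^ 2)
  rw [measureReal_prod_prod, probReal_univ, mul_one, sub_self] at h1
  refine h1.congr fun M => ?_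
  simp only [Function.comp_apply]
  rw [expect_sub_distrib, expect_const (nonempty_range_add_one.product nonempty_range_add_one)]
  congr 1
  refine expect_congr rfl fun p _ => ?_
  rw [Prod.map_iterate, Prod.map_iterate, Set.preimage_prod_map_prod,
    Set.preimage_prod_map_prod, Set.prod_inter_prod, iter_nat, iter_nat, measureReal_prod_prod]
  simp

/-- a sequence with vanishing Weyl sums is ergodic for every weakly mixing transformation -/
theorem jei_of_weyl (hT : MeasurePreserving T μ μ) (hW : Ergodic (Prod.map T T) (μ.prod μ))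
    (hΦ : ∀ N, (Φ N).Nonempty) {b : I → ℤ} (hb : WeylNull Φ b) : JEi μ T Φ b := by
  refine jei_of_corr hT hΦ fun A hA => ?_
  let K : ℤ → Lp ℂ 2 μ →L[ℂ] Lp ℂ 2 μ := fun n =>
    (Lp.compMeasurePreservingₗᵢ ℂ (iter T n) (mp_iter hT n)).toContinuousLinearMap
  have hK : ∀ n (f : Lp ℂ 2 μ), K n f =ᵐ[μ] f ∘ iter T n :=
    fun n f => Lp.coeFn_compMeasurePreserving f (mp_iter hT n)
  have h0 : K 0 = 1 := by
    refine ContinuousLinearMap.ext fun f => Lp.ext ?_
    filter_upwards [hK 0 f] with x hx
    rw [hx, Function.comp_apply, iter_zero]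
    rfl
  have hadd : ∀ m n, K (m + n) = K m * K n := by
    intro m n
    refine ContinuousLinearMap.ext fun f => Lp.ext ?_
    filter_upwards [hK (m + n) f, hK m (K n f),
      (mp_iter hT m).quasiMeasurePreserving.ae (hK n f)] with x h1 h2 h3
    rw [h1, mul_apply_eq_comp, h2, Function.comp_apply, Function.comp_apply, h3,
      Function.comp_apply, add_comm, iter_add]
  have hiso : ∀ x y, ⟪K 1 x, K 1 y⟫_ℂ = ⟪x, y⟫_ℂ := fun x y =>
    (Lp.compMeasurePreservingₗᵢ ℂ (iter T 1) (mp_iter hT 1)).inner_map_map x y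
  have hg : MemLp (fun x => ind A x - μ.real A) 2 μ :=
    (memLp_of_bm ((bm_ind hA).sub (BM.const _))).mono_exponent le_top
  have hin : ∀ m n, ⟪K m hg.toLp, K n hg.toLp⟫_ℂ =
      (μ.real (iter T m ⁻¹' A ∩ iter T n ⁻¹' A) - μ.real A ^ 2 : ℝ) := by
    intro m n
    rw [Set.inter_comm, ← corr_ind (measurable_iter T _ hA) (measurable_iter T _ hA)
      (real_iter hT _ hA) (real_iter hT _ hA), L2.inner_def]
    refine integral_congr_ae ?_
    filter_upwards [hK m hg.toLp, hK n hg.toLp,
      (mp_iter hT m).quasiMeasurePreserving.ae hg.coeFn_toLp,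
      (mp_iter hT n).quasiMeasurePreserving.ae hg.coeFn_toLp] with x h1 h2 h3 h4
    rw [h1, h2, Function.comp_apply, Function.comp_apply, h3, h4, RCLike.inner_apply]
    rfl
  have hr : ∀ M : ℕ, (range (M + 1)).Nonempty := fun _ => nonempty_range_add_one
  have h1 := dens_of_mean hT (wm_of_ergodic hW) (fun M => (hr M).product (hr M))
    (mean_cross hT hr (jei_nat hT hW) fun n : ℕ => (n : ℤ)) A A hA hA
  rw [tendsto_iff_norm_sub_tendsto_zero, ← sq] at h1
  have h2 := avg_of_dens (C := 1 + ‖μ.real A ^ 2‖) (fun _ => norm_nonneg _) (fun p => by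
    refine (norm_sub_le _ _).trans (add_le_add ?_ le_rfl)
    rw [Real.norm_of_nonneg measureReal_nonneg]
    exact measureReal_le_one) h1
  have h3 := weyl_abstract h0 hadd hiso hg.toLp (by simpa only [hin, Complex.norm_real] using h2) hb
  simp only [hin] at h3
  apply real_of_complex
  simpa only [Complex.ofReal_expect, Complex.ofReal_zero] using h3

/-- **The Weyl criterion** -/
theorem je_of_weyl (hT : MeasurePreserving T μ μ) (hW : Ergodic (Prod.map T T) (μ.prod μ))
    (hΦ : ∀ N, (Φ N).Nonempty) {a : Fin k → I → ℤ} (h1 : ∀ i, WeylNull Φ (a i))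
    (h2 : ∀ i j, i ≠ j → WeylNull Φ (a i - a j)) : JointlyErgodic μ T Φ a :=
  (je_iff hT).2 (je_of_weak hT (wm_of_ergodic hW) hΦ (fun i => jei_of_weyl hT hW hΦ (h1 i))
    fun i j hij => (jei_of_weyl hT hW hΦ (h2 i j hij)).weak)

end Vale.Agent.N102
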